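import Vale.Agent.P065.H626.Seg
import Vale.Agent.P118.OF.Defs

/-!
# P065, upper bound, block AC2 (helper626): literal Props

`GridIn` = the output of [GRID] / [U2']: cells `C a s ⊆ B ×ˢ H` of the strips `s ∈ S a` of the
classes `a ∈ A` at ONE resolution `δ`, and (STAR) in the mass form (`P0` = the points, `m` = points
per cell, boxes dilated by `K` on the right).  `GridOut` = the hypotheses of helper196's ENDX.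
-/

set_option autoImplicit false

namespace Vale.Agent.P065.H626

open Finset
open Vale.Agent.P118.OF (Cov Sep)

open Classical in
/-- the data of the grid at the resolution `δ`; `n = lam` strips per class -/
structure GridIn (K n m δ : ℝ) (A B H : Finset ℝ) (S : ℝ → Finset ℝ)
    (C : ℝ → ℝ → Finset (ℝ × ℝ)) (P0 : Finset (ℝ × ℝ)) : Prop where
  hK : 3072 ≤ K
  δ0 : 0 < δ
  n0 : 0 < n
  m0 : 0 < m
  cA : n ≤ K * #A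
  A1 : ∀ a ∈ A, 1 ≤ K * |a| ∧ |a| ≤ K
  sB : Sep δ B
  sH : Sep δ H
  cB : (#B : ℝ) ≤ K * n
  cH : (#H : ℝ) ≤ K * n
  cS : ∀ a ∈ A, (#(S a) : ℝ) ≤ K * n
  sub : ∀ a ∈ A, ∀ s ∈ S a, ∀ q ∈ C a s, q.1 ∈ B ∧ q.2 ∈ H
  disj : ∀ a ∈ A, ∀ s ∈ S a, ∀ s' ∈ S a, s ≠ s' → Disjoint (C a s) (C a s')
  near : ∀ a ∈ A, ∀ s ∈ S a, ∀ q ∈ C a s, |q.1 + a * q.2 - s| ≤ δ
  full : ∀ a ∈ A, n ^ 2 ≤ K * ∑ s ∈ S a, (#(C a s) : ℝ)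
  cP : (#P0 : ℝ) ≤ K * n ^ 2 * m
  star : ∀ al ∈ A, ∀ t r : ℝ, δ ≤ t → t ≤ r → r ≤ 1 → ∀ s₀ h₀ : ℝ,
    ∑ a ∈ A.filter (fun a => |a - al| ≤ t / r), ∑ s ∈ S a,
      (m * #((C a s).filter (Box al t r s₀ h₀))) ^ 3
    ≤ K * (n * m) * (#(P0.filter (Box al (K * t) (K * r) s₀ h₀)) : ℝ) ^ 2

/-- the hypotheses of ENDX: one set `X`, a dense family `A'` of multipliers, `SUBA` for nets -/
structure GridOut (L n δ : ℝ) (A A' X H : Finset ℝ) : Prop where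
  subA : A' ⊆ A
  subX : X ⊆ H
  cA : (#A : ℝ) ≤ L * #A'
  cX : n ≤ L * #X
  cov : ∀ a ∈ A', ∀ b ∈ A', Cov δ (L * n) {z : ℝ | ∃ x ∈ X, ∃ y ∈ X, z = a * x - b * y}
  suba : ∀ t r : ℝ, δ ≤ t → t ≤ r → r ≤ 1 → ∀ P Q R : Finset ℝ, P ⊆ X → Sep t P →
    Q ⊆ X → (∀ x ∈ X, ∃ q ∈ Q, |x - q| ≤ r) → R ⊆ A' → (∀ a ∈ A', ∃ b ∈ R, |a - b| ≤ t / r) →
    (#P : ℝ) ≤ L * #R * #Q

/-- **AC2** -/
def StAC2 : Prop :=
  ∃ c : ℕ, ∀ (K n m δ : ℝ) (A B H : Finset ℝ) (S : ℝ → Finset ℝ)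
    (C : ℝ → ℝ → Finset (ℝ × ℝ)) (P0 : Finset (ℝ × ℝ)), GridIn K n m δ A B H S C P0 →
    ∃ A' X : Finset ℝ, GridOut (K ^ c) n δ A A' X H

end Vale.Agent.P065.H626
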