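import Vale.Agent.P065.H17.AC1
import Vale.Agent.P065.H626.AC2Defs

/-!
# P065, upper bound, AC1' (helper626)

Extension of helper17's `ac1` (idea of the extension: helper196): one set `X` of second coordinates
and one set `B'` of first coordinates such that every `G a`, `a ∈ A'`, is dense in `B' ×ˢ X`, and
every `b ∈ B'` has many neighbours in `X` for one multiplier `a₀`.
-/

set_option autoImplicit false

namespace Vale.Agent.P065.H626

open Finset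
open scoped Pointwise
open Vale.Agent.P118.OF (Cov Sep)
open Vale.Agent.P118.H611 (hh)
open Vale.Agent.P118.H884 (pigeon ruzsa_chainS)
open Vale.Agent.P065.H17 (em card_sep bsg_one card_hh sep_mono cov_line)

open Classical in
/-- points of large degree -/
lemma deg_prune {K n : ℝ} (hK : 2 ≤ K) (hn : 0 < n) {H : Finset ℝ} {G : Finset (ℝ × ℝ)}
    (hG : ∀ p ∈ G, p.2 ∈ H) (hH : (#H : ℝ) ≤ K * n) (hGc : n ^ 2 ≤ K * #G) :
    ∃ H' ⊆ H, (∀ h ∈ H', n ≤ 2 * K ^ 2 * #(G.filter (fun p => p.2 = h))) ∧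
      n ^ 2 ≤ K ^ 2 * #(G.filter (fun p => p.2 ∈ H')) := by
  have hK0 : 0 < K := by linarith
  set H' := H.filter (fun h => n ≤ 2 * K ^ 2 * #(G.filter (fun p => p.2 = h))) with hH'
  refine ⟨H', filter_subset _ _, fun h hh => (mem_filter.1 hh).2, ?_⟩
  have h1 : (#G : ℝ) = #(G.filter (fun p => p.2 ∈ H')) + #(G.filter (fun p => ¬ p.2 ∈ H')) := by
    exact_mod_cast (card_filter_add_card_filter_not (s := G) (fun p => p.2 ∈ H')).symm
  have h2 : 2 * K ^ 2 * (#(G.filter (fun p => ¬ p.2 ∈ H')) : ℝ) ≤ K * n * n := by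
    have e1 : #(G.filter (fun p => ¬ p.2 ∈ H'))
        = ∑ h ∈ H \ H', #((G.filter (fun p => ¬ p.2 ∈ H')).filter (fun p => p.2 = h)) := by
      refine card_eq_sum_card_fiberwise fun p hp => ?_
      have := mem_filter.1 (mem_coe.1 hp)
      exact mem_coe.2 (mem_sdiff.2 ⟨hG p this.1, this.2⟩)
    have e2 : ∀ h ∈ H \ H', 2 * K ^ 2 *
        (#((G.filter (fun p => ¬ p.2 ∈ H')).filter (fun p => p.2 = h)) : ℝ) ≤ n := by
      intro h hh
      obtain ⟨h3, h4⟩ := mem_sdiff.1 hh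
      have h5 : ¬ n ≤ 2 * K ^ 2 * #(G.filter (fun p => p.2 = h)) :=
        fun h6 => h4 (mem_filter.2 ⟨h3, h6⟩)
      push Not at h5
      refine le_trans ?_ h5.le
      gcongr
      exact filter_subset _ _
    rw [e1]
    push_cast
    rw [mul_sum]
    calc _ ≤ ∑ h ∈ H \ H', n := sum_le_sum e2
      _ = #(H \ H') * n := by rw [sum_const, nsmul_eq_mul]
      _ ≤ #H * n := by
        gcongr
        exact sdiff_subset
      _ ≤ K * n * n := by gcongr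
  have h3 : 2 * K * n ^ 2 ≤ 2 * K ^ 2 * #G := by nlinarith
  have h4 : K * n ^ 2 ≤ 2 * K ^ 2 * #(G.filter (fun p => p.2 ∈ H')) := by
    rw [h1] at h3
    nlinarith
  have h5 : K * n ^ 2 ≤ K * (K ^ 2 * #(G.filter (fun p => p.2 ∈ H'))) := by
    refine h4.trans ?_
    have : 0 ≤ (#(G.filter (fun p => p.2 ∈ H')) : ℝ) := Nat.cast_nonneg _
    nlinarith [mul_nonneg (sq_nonneg K) this]
  exact le_of_mul_le_mul_left h5 hK0

open Classical in
lemma sum_deg {K n : ℝ} {Y : Finset ℝ} {G : Finset (ℝ × ℝ)}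
    (h : ∀ y ∈ Y, n ≤ 2 * K ^ 2 * #(G.filter (fun p => p.2 = y))) :
    #Y * n ≤ 2 * K ^ 2 * #(G.filter (fun p => p.2 ∈ Y)) := by
  have e1 : #(G.filter (fun p => p.2 ∈ Y))
      = ∑ y ∈ Y, #((G.filter (fun p => p.2 ∈ Y)).filter (fun p => p.2 = y)) := by
    refine card_eq_sum_card_fiberwise fun p hp => ?_
    exact mem_coe.2 (mem_filter.1 (mem_coe.1 hp)).2
  have e2 : ∀ y ∈ Y, (G.filter (fun p => p.2 ∈ Y)).filter (fun p => p.2 = y)
      = G.filter (fun p => p.2 = y) := by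
    intro y hy
    ext p
    simp only [mem_filter]
    constructor
    · rintro ⟨⟨h1, -⟩, h2⟩; exact ⟨h1, h2⟩
    · rintro ⟨h1, h2⟩; exact ⟨⟨h1, h2 ▸ hy⟩, h2⟩
  rw [e1]
  push_cast
  rw [mul_sum]
  calc (#Y : ℝ) * n = ∑ y ∈ Y, n := by rw [sum_const, nsmul_eq_mul]
    _ ≤ _ := by
      refine sum_le_sum fun y hy => ?_
      rw [e2 y hy]
      exact h y hy

/-- arithmetic 1: the triples are dense -/
lemma ar1 {K n b h h' x y g : ℝ} (hK : 2 ≤ K) (hn : 0 < n) (hb0 : 0 ≤ b) (hh0 : 0 ≤ h)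
    (_hx0 : 0 ≤ x) (_hy0 : 0 ≤ y) (hg0 : 0 ≤ g) (hb : b ≤ K * n) (hh : h ≤ K * n) (hh' : h' ≤ h)
    (hx : b ≤ K ^ 8 * x) (hy : h' ≤ K ^ 8 * y) (hbh : n * n ≤ K ^ 2 * (b * h'))
    (hg : y * n ≤ 2 * K ^ 2 * g) : n ≤ K ^ 3 * b ∧ n ≤ K ^ 3 * h ∧ n ≤ K ^ 11 * x ∧
      n ≤ K ^ 11 * y ∧ b * h * b ≤ K ^ 28 * (g * x) := by
  have hK0 : 0 < K := by linarith
  have h1 : n ≤ K ^ 3 * b := by
    have : n * n ≤ (K ^ 3 * b) * n := by
      calc n * n ≤ K ^ 2 * (b * h') := hbh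
        _ ≤ K ^ 2 * (b * (K * n)) := by gcongr; exact hh'.trans hh
        _ = _ := by ring
    exact le_of_mul_le_mul_right this hn
  have h2 : n ≤ K ^ 3 * h' := by
    by_contra hcon
    push Not at hcon
    have h0 : 0 ≤ h' := by
      by_contra h3
      push Not at h3
      have : b * h' ≤ 0 := mul_nonpos_of_nonneg_of_nonpos hb0 h3.le
      nlinarith [mul_pos hn hn, mul_nonneg (sq_nonneg K) (neg_nonneg.2 this)]
    have : n * n ≤ (K ^ 3 * h') * n := by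
      calc n * n ≤ K ^ 2 * (b * h') := hbh
        _ ≤ K ^ 2 * ((K * n) * h') := by gcongr
        _ = _ := by ring
    have := le_of_mul_le_mul_right this hn
    linarith
  have h3 : n ≤ K ^ 11 * x := by
    calc n ≤ K ^ 3 * b := h1
      _ ≤ K ^ 3 * (K ^ 8 * x) := by gcongr
      _ = _ := by ring
  have h4 : n ≤ K ^ 11 * y := by
    calc n ≤ K ^ 3 * h' := h2
      _ ≤ K ^ 3 * (K ^ 8 * y) := by gcongr
      _ = _ := by ring
  refine ⟨h1, h2.trans (by gcongr), h3, h4, ?_⟩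
  have h5 : n * n ≤ K ^ 14 * g := by
    calc n * n ≤ (K ^ 11 * y) * n := by gcongr
      _ = K ^ 11 * (y * n) := by ring
      _ ≤ K ^ 11 * (2 * K ^ 2 * g) := by gcongr
      _ ≤ K ^ 11 * (K * K ^ 2 * g) := by gcongr
      _ = _ := by ring
  calc b * h * b ≤ (K * n) * (K * n) * (K * n) := by gcongr
    _ = K ^ 3 * ((n * n) * n) := by ring
    _ ≤ K ^ 3 * ((K ^ 14 * g) * (K ^ 11 * x)) := by gcongr
    _ = _ := by ring

/-- arithmetic 2: the intersections are dense -/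
lemma ar2 {K n b h g x y : ℝ} (hK : 2 ≤ K) (hn : 0 < n) (hb0 : 0 ≤ b) (hh0 : 0 ≤ h)
    (hx0 : 0 ≤ x) (hy0 : 0 ≤ y) (hg0 : 0 ≤ g) (hb : b ≤ K * n) (hh : h ≤ K * n)
    (h1 : n ≤ K ^ 3 * b) (h2 : n ≤ K ^ 3 * h) (hx : x ≤ b) (hgy : g ≤ b * y) (hy : y ≤ h)
    (hU : b * h * b ≤ 2 * (K ^ 28) ^ 2 * (g * x)) :
    n ^ 2 ≤ K ^ 67 * g ∧ n ≤ K ^ 68 * y ∧ n ≤ K ^ 68 * x := by
  have hK0 : 0 < K := by linarith
  have h3 : n * n * n ≤ K ^ 66 * (g * x) := by
    calc n * n * n ≤ (K ^ 3 * b) * (K ^ 3 * h) * (K ^ 3 * b) := by gcongr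
      _ = K ^ 9 * (b * h * b) := by ring
      _ ≤ K ^ 9 * (2 * (K ^ 28) ^ 2 * (g * x)) := by gcongr
      _ ≤ K ^ 9 * (K * (K ^ 28) ^ 2 * (g * x)) := by gcongr
      _ = _ := by ring
  have h4 : n ^ 2 ≤ K ^ 67 * g := by
    have : n ^ 2 * n ≤ (K ^ 67 * g) * n := by
      calc n ^ 2 * n = n * n * n := by ring
        _ ≤ K ^ 66 * (g * x) := h3
        _ ≤ K ^ 66 * (g * (K * n)) := by gcongr; exact hx.trans hb
        _ = _ := by ring
    exact le_of_mul_le_mul_right this hn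
  have h5 : n ≤ K ^ 68 * y := by
    have : n * n ≤ (K ^ 68 * y) * n := by
      calc n * n = n ^ 2 := by ring
        _ ≤ K ^ 67 * g := h4
        _ ≤ K ^ 67 * (b * y) := by gcongr
        _ ≤ K ^ 67 * ((K * n) * y) := by gcongr
        _ = _ := by ring
    exact le_of_mul_le_mul_right this hn
  refine ⟨h4, h5, ?_⟩
  have h6 : g ≤ K ^ 2 * (n * n) := by
    calc g ≤ b * y := hgy
      _ ≤ (K * n) * (K * n) := by gcongr; exact hy.trans hh
      _ = _ := by ring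
  have : (n * n) * n ≤ (n * n) * (K ^ 68 * x) := by
    calc (n * n) * n = n * n * n := by ring
      _ ≤ K ^ 66 * (g * x) := h3
      _ ≤ K ^ 66 * ((K ^ 2 * (n * n)) * x) := by gcongr
      _ = _ := by ring
  exact le_of_mul_le_mul_left this (by positivity)

open Classical in
/-- **AC1'** -/
theorem ac1' : ∃ C : ℕ, ∀ (K n δ : ℝ) (A B H : Finset ℝ) (G : ℝ → Finset (ℝ × ℝ)),
    3072 ≤ K → 0 < δ → 0 < n → A.Nonempty → (∀ a ∈ A, 1 ≤ K * |a| ∧ |a| ≤ K) →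
    Sep δ B → Sep δ H → (B.card : ℝ) ≤ K * n → (H.card : ℝ) ≤ K * n →
    (∀ a ∈ A, (∀ p ∈ G a, p.1 ∈ B ∧ p.2 ∈ H) ∧ n ^ 2 ≤ K * (G a).card ∧
      Cov δ (K * n) {z : ℝ | ∃ p ∈ G a, z = p.1 + a * p.2}) →
    ∃ a₀ ∈ A, ∃ A' ⊆ A, ∃ X ⊆ H, ∃ B' ⊆ B, (A.card : ℝ) ≤ K ^ C * A'.card ∧
      n ≤ K ^ C * X.card ∧
      (∀ a ∈ A', ∀ b ∈ A', Cov δ (K ^ C * n) {z : ℝ | ∃ x ∈ X, ∃ y ∈ X, z = a * x - b * y}) ∧
      (∀ b ∈ B', n ≤ K ^ C * #(X.filter (fun x => (b, x) ∈ G a₀))) ∧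
      ∀ a ∈ A', n ^ 2 ≤ K ^ C * #((G a).filter (fun p => p.1 ∈ B' ∧ p.2 ∈ X)) := by
  refine ⟨889, ?_⟩
  intro K n δ A B H G hK hδ hn hA hAa hB hH hBc hHc hG
  have hK1 : 1 ≤ K := by linarith
  have hK2 : 2 ≤ K := by linarith
  have hK4 : 4 ≤ K := by linarith
  have hK0 : 0 < K := by linarith
  have hKK : K ≤ K ^ 2 := by nlinarith
  -- pruning
  have hpr : ∀ a ∈ A, ∃ H' ⊆ H, (∀ h ∈ H', n ≤ 2 * K ^ 2 * #((G a).filter (fun p => p.2 = h))) ∧
      n ^ 2 ≤ K ^ 2 * #((G a).filter (fun p => p.2 ∈ H')) := fun a ha =>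
    deg_prune hK2 hn (fun p hp => ((hG a ha).1 p hp).2) hHc (hG a ha).2.1
  choose! H' hH' hdeg hG' using hpr
  have hstep : ∀ a ∈ A, ∃ X ⊆ B, ∃ Y ⊆ H' a, (B.card : ℝ) ≤ (K ^ 2) ^ 4 * X.card ∧
      ((H' a).card : ℝ) ≤ (K ^ 2) ^ 4 * Y.card ∧ n * n ≤ K ^ 2 * (B.card * (H' a).card) ∧
      (#(hh (X.image em) (δ / 2) 1 + hh (Y.image em) (δ / 2) a) : ℝ) ≤ (K ^ 2) ^ 25 * n := by
    intro a ha
    refine bsg_one (G := (G a).filter (fun p => p.2 ∈ H' a)) hδ (by linarith) hn ?_ hB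
      (sep_mono hH (hH' a ha)) ?_ ?_ ?_ (hG' a ha) ?_
    · calc 1 ≤ K * |a| := (hAa a ha).1
        _ ≤ K ^ 2 * |a| := by gcongr
    · exact hBc.trans (by gcongr)
    · refine le_trans (by exact_mod_cast card_le_card (hH' a ha)) (hHc.trans (by gcongr))
    · intro p hp
      exact ⟨((hG a ha).1 p (mem_filter.1 hp).1).1, (mem_filter.1 hp).2⟩
    · obtain ⟨Z, hZ1, hZ2⟩ := (hG a ha).2.2
      refine ⟨Z, hZ1.trans (by gcongr), ?_⟩
      rintro z ⟨p, hp, rfl⟩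
      exact hZ2 _ ⟨p, (mem_filter.1 hp).1, rfl⟩
  choose! X hX Y hY hXc hYc hBH hsum using hstep
  set G' : ℝ → Finset (ℝ × ℝ) := fun a => (G a).filter (fun p => p.2 ∈ Y a) with hG'def
  set Pt : ℝ → Finset ((ℝ × ℝ) × ℝ) := fun a => (G' a) ×ˢ (X a) with hPt
  have har : ∀ a ∈ A, n ≤ K ^ 3 * #B ∧ n ≤ K ^ 3 * #H ∧ n ≤ K ^ 11 * #(X a) ∧
      n ≤ K ^ 11 * #(Y a) ∧ (#B : ℝ) * #H * #B ≤ K ^ 28 * (#(G' a) * #(X a)) := by
    intro a ha
    refine ar1 (h' := #(H' a)) hK2 hn (Nat.cast_nonneg _) (Nat.cast_nonneg _) (Nat.cast_nonneg _)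
      (Nat.cast_nonneg _) (Nat.cast_nonneg _) hBc hHc
      (by exact_mod_cast card_le_card (hH' a ha)) ?_ ?_ (hBH a ha)
      (sum_deg fun y hy => hdeg a ha y (hY a ha hy))
    · refine (hXc a ha).trans (le_of_eq ?_); ring
    · refine (hYc a ha).trans (le_of_eq ?_); ring
  obtain ⟨a₀, ha₀, hA2⟩ := pigeon A hA ((B ×ˢ H) ×ˢ B) Pt
    (fun a ha => by
      refine product_subset_product (fun p hp => ?_) (hX a ha)
      exact mem_product.2 ((hG a ha).1 p (mem_filter.1 hp).1)) (K ^ 28) (one_le_pow₀ hK1)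
    (fun a ha => by
      rw [card_product, card_product, card_product]
      push_cast
      exact (har a ha).2.2.2.2)
  set A' := A.filter (fun a => (#((B ×ˢ H) ×ˢ B) : ℝ) ≤ 2 * (K ^ 28) ^ 2 *
    #(Pt a ∩ Pt a₀)) with hA'
  have hpow : ∀ k : ℕ, k ≤ 889 → K ^ k ≤ K ^ 889 := fun k hk => pow_le_pow_right₀ hK1 hk
  have hint : ∀ a ∈ A', a ∈ A ∧ n ^ 2 ≤ K ^ 67 * #(G' a ∩ G' a₀) ∧
      n ≤ K ^ 68 * #(Y a ∩ Y a₀) ∧ n ≤ K ^ 68 * #(X a ∩ X a₀) := by
    intro a ha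
    obtain ⟨haA, hU⟩ := mem_filter.1 ha
    refine ⟨haA, ?_⟩
    simp only [hPt] at hU
    rw [product_inter_product, card_product, card_product, card_product] at hU
    push_cast at hU
    refine ar2 (b := #B) (h := #H) hK2 hn (Nat.cast_nonneg _) (Nat.cast_nonneg _)
      (Nat.cast_nonneg _) (Nat.cast_nonneg _) (Nat.cast_nonneg _) hBc hHc (har a haA).1
      (har a haA).2.1 ?_ ?_ ?_ hU
    · exact_mod_cast card_le_card (inter_subset_left.trans (hX a haA))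
    · have h1 : G' a ∩ G' a₀ ⊆ B ×ˢ (Y a ∩ Y a₀) := by
        intro p hp
        obtain ⟨h2, h3⟩ := mem_inter.1 hp
        rw [mem_product, mem_inter]
        exact ⟨((hG a haA).1 p (mem_filter.1 h2).1).1, (mem_filter.1 h2).2, (mem_filter.1 h3).2⟩
      have h2 := card_le_card h1
      rw [card_product] at h2
      exact_mod_cast h2
    · exact_mod_cast card_le_card (inter_subset_left.trans ((hY a haA).trans (hH' a haA)))
  have hcov : ∀ a ∈ A', ∀ b ∈ A', Cov δ (K ^ 889 * n)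
      {z : ℝ | ∃ x ∈ Y a₀, ∃ y ∈ Y a₀, z = a * x - b * y} := by
    have hdata : ∀ a ∈ A',
        (n ≤ K ^ 69 * #(hh ((X a ∩ X a₀).image em) (δ / 2) 1) ∧
        n ≤ K ^ 69 * #(hh ((Y a ∩ Y a₀).image em) (δ / 2) a)) ∧
        (#(hh ((X a ∩ X a₀).image em) (δ / 2) 1 + hh ((Y a ∩ Y a₀).image em) (δ / 2) a) : ℝ)
          ≤ K ^ 50 * n := by
      intro a haA'
      obtain ⟨haA, -, hI2, hI1⟩ := hint a haA'
      refine ⟨⟨?_, ?_⟩, ?_⟩
      · have h1 := card_hh (a := 1) hδ hK4 (by rw [abs_one]; linarith)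
          (sep_mono hB (inter_subset_left.trans (hX a haA)) : Sep δ (X a ∩ X a₀))
        calc n ≤ K ^ 68 * (X a ∩ X a₀).card := hI1
          _ ≤ K ^ 68 * (K * #(hh ((X a ∩ X a₀).image em) (δ / 2) 1)) := by gcongr
          _ = _ := by ring
      · have h1 := card_hh (a := a) hδ hK4 (hAa a haA).1
          (sep_mono hH (inter_subset_left.trans ((hY a haA).trans (hH' a haA))) :
            Sep δ (Y a ∩ Y a₀))
        calc n ≤ K ^ 68 * (Y a ∩ Y a₀).card := hI2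
          _ ≤ K ^ 68 * (K * #(hh ((Y a ∩ Y a₀).image em) (δ / 2) a)) := by gcongr
          _ = _ := by ring
      · refine le_trans ?_ ((hsum a haA).trans (le_of_eq (by ring)))
        exact_mod_cast card_le_card (add_subset_add
          (image_subset_image (image_subset_image inter_subset_left))
          (image_subset_image (image_subset_image inter_subset_left)))
    have hl5 : n ≤ K ^ 69 * #(hh ((Y a₀).image em) (δ / 2) a₀) := by
      have h6 := card_hh (a := a₀) hδ hK4 (hAa a₀ ha₀).1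
        (sep_mono hH ((hY a₀ ha₀).trans (hH' a₀ ha₀)) : Sep δ (Y a₀))
      calc n ≤ K ^ 11 * (Y a₀).card := (har a₀ ha₀).2.2.2.1
        _ ≤ K ^ 11 * (K * #(hh ((Y a₀).image em) (δ / 2) a₀)) := by gcongr
        _ = K ^ 12 * #(hh ((Y a₀).image em) (δ / 2) a₀) := by ring
        _ ≤ K ^ 69 * #(hh ((Y a₀).image em) (δ / 2) a₀) := by
            gcongr
            norm_num
    have hs0 : (#(hh ((X a₀).image em) (δ / 2) 1 + hh ((Y a₀).image em) (δ / 2) a₀) : ℝ)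
        ≤ K ^ 50 * n := (hsum a₀ ha₀).trans (le_of_eq (by ring))
    intro a ha b hb
    obtain ⟨⟨da1, da2⟩, da3⟩ := hdata a ha
    obtain ⟨⟨db1, db2⟩, db3⟩ := hdata b hb
    refine cov_line _ hδ ?_
    exact ruzsa_chainS (D := 1) (e := δ / 2) (L := K) (n := n) (t := 50) (r := 69)
      (by positivity) (by linarith : (15 : ℝ) ≤ K) hn ((X a₀).image em) ((Y a₀).image em)
        a₀ a b (hAa a₀ ha₀).1 (hAa a (hint a ha).1).2 ((X a ∩ X a₀).image em)
        ((Y a ∩ Y a₀).image em) ((X b ∩ X a₀).image em) ((Y b ∩ Y a₀).image em)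
        (image_subset_image inter_subset_right) (image_subset_image inter_subset_right)
        (image_subset_image inter_subset_right) (image_subset_image inter_subset_right)
        (hAa b (hint b hb).1).2 hs0 da3 db3 da1 db1 da2 db2 hl5
  set B' := B.filter (fun b => n ≤ K ^ 69 * #((Y a₀).filter (fun x => (b, x) ∈ G a₀))) with hB'
  refine ⟨a₀, ha₀, A', filter_subset _ _, Y a₀, (hY a₀ ha₀).trans (hH' a₀ ha₀), B',
    filter_subset _ _, ?_, ?_, hcov, ?_, ?_⟩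
  · refine hA2.trans (mul_le_mul_of_nonneg_right ?_ (Nat.cast_nonneg _))
    calc 2 * (K ^ 28) ^ 2 ≤ K * (K ^ 28) ^ 2 := by gcongr
      _ = K ^ 57 := by ring
      _ ≤ K ^ 889 := hpow 57 (by norm_num)
  · exact (har a₀ ha₀).2.2.2.1.trans
      (mul_le_mul_of_nonneg_right (hpow 11 (by norm_num)) (Nat.cast_nonneg _))
  · intro b hb
    exact (mem_filter.1 hb).2.trans
      (mul_le_mul_of_nonneg_right (hpow 69 (by norm_num)) (Nat.cast_nonneg _))
  · intro a ha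
    obtain ⟨haA, hg, -, -⟩ := hint a ha
    have h1 : G' a ∩ G' a₀ ⊆ (G a).filter (fun p => p.1 ∈ B' ∧ p.2 ∈ Y a₀) ∪
        (B \ B').biUnion (fun b => ((Y a₀).filter (fun x => (b, x) ∈ G a₀)).image
          (fun x => (b, x))) := by
      intro p hp
      obtain ⟨h2, h3⟩ := mem_inter.1 hp
      obtain ⟨h4, h5⟩ := mem_filter.1 h2
      obtain ⟨h6, h7⟩ := mem_filter.1 h3
      rw [mem_union]
      by_cases hb : p.1 ∈ B'
      · exact Or.inl (mem_filter.2 ⟨h4, hb, h7⟩)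
      · refine Or.inr (mem_biUnion.2 ⟨p.1, mem_sdiff.2 ⟨((hG a haA).1 p h4).1, hb⟩, ?_⟩)
        exact mem_image.2 ⟨p.2, mem_filter.2 ⟨h7, h6⟩, rfl⟩
    have h2 : K ^ 69 * (#((B \ B').biUnion (fun b => ((Y a₀).filter
        (fun x => (b, x) ∈ G a₀)).image (fun x => (b, x)))) : ℝ) ≤ K * n * n := by
      have h3 : (#((B \ B').biUnion (fun b => ((Y a₀).filter
          (fun x => (b, x) ∈ G a₀)).image (fun x => (b, x)))) : ℝ)
          ≤ ∑ b ∈ B \ B', (#((Y a₀).filter (fun x => (b, x) ∈ G a₀)) : ℝ) := by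
        have h4 := card_biUnion_le (s := B \ B') (t := fun b => ((Y a₀).filter
          (fun x => (b, x) ∈ G a₀)).image (fun x => (b, x)))
        have h5 : ∑ b ∈ B \ B', #(((Y a₀).filter (fun x => (b, x) ∈ G a₀)).image
            (fun x => (b, x))) ≤ ∑ b ∈ B \ B', #((Y a₀).filter (fun x => (b, x) ∈ G a₀)) :=
          sum_le_sum fun b _ => card_image_le
        exact_mod_cast h4.trans h5
      calc _ ≤ K ^ 69 * ∑ b ∈ B \ B', (#((Y a₀).filter (fun x => (b, x) ∈ G a₀)) : ℝ) := by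
            gcongr
        _ = ∑ b ∈ B \ B', K ^ 69 * (#((Y a₀).filter (fun x => (b, x) ∈ G a₀)) : ℝ) := by
            rw [mul_sum]
        _ ≤ ∑ b ∈ B \ B', n := by
            refine sum_le_sum fun b hb => ?_
            obtain ⟨h4, h5⟩ := mem_sdiff.1 hb
            have h6 : ¬ n ≤ K ^ 69 * #((Y a₀).filter (fun x => (b, x) ∈ G a₀)) :=
              fun h7 => h5 (mem_filter.2 ⟨h4, h7⟩)
            push Not at h6
            exact h6.le
        _ = #(B \ B') * n := by rw [sum_const, nsmul_eq_mul]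
        _ ≤ #B * n := by gcongr; exact sdiff_subset
        _ ≤ K * n * n := by gcongr
    have h3 : (#(G' a ∩ G' a₀) : ℝ) ≤ #((G a).filter (fun p => p.1 ∈ B' ∧ p.2 ∈ Y a₀)) +
        #((B \ B').biUnion (fun b => ((Y a₀).filter (fun x => (b, x) ∈ G a₀)).image
          (fun x => (b, x)))) := by
      exact_mod_cast (card_le_card h1).trans (card_union_le _ _)
    generalize (#((B \ B').biUnion (fun b => ((Y a₀).filter
        (fun x => (b, x) ∈ G a₀)).image (fun x => (b, x)))) : ℝ) = u at h2 h3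
    have hv0 : (0 : ℝ) ≤ #((G a).filter (fun p => p.1 ∈ B' ∧ p.2 ∈ Y a₀)) := Nat.cast_nonneg _
    generalize (#((G a).filter (fun p => p.1 ∈ B' ∧ p.2 ∈ Y a₀)) : ℝ) = v at h3 hv0 ⊢
    generalize (#(G' a ∩ G' a₀) : ℝ) = g at h3 hg
    have h4 : K ^ 69 * u ≤ K * n ^ 2 := h2.trans (le_of_eq (by ring))
    have h5 : K ^ 2 * n ^ 2 ≤ K ^ 69 * v + K * n ^ 2 := by
      calc K ^ 2 * n ^ 2 ≤ K ^ 2 * (K ^ 67 * g) := by gcongr
        _ = K ^ 69 * g := by ring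
        _ ≤ K ^ 69 * (v + u) := by gcongr
        _ = K ^ 69 * v + K ^ 69 * u := by ring
        _ ≤ _ := by gcongr
    have h6 : K * n ^ 2 ≤ K ^ 69 * v := by
      have : 2 * K * n ^ 2 ≤ K ^ 2 * n ^ 2 := by
        have : 2 * K ≤ K ^ 2 := by nlinarith
        gcongr
      linarith
    calc n ^ 2 = 1 * n ^ 2 := by ring
      _ ≤ K * n ^ 2 := by gcongr
      _ ≤ K ^ 69 * v := h6
      _ ≤ K ^ 889 * v := by gcongr; norm_num

end Vale.Agent.P065.H626
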