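import Vale.Agent.P065.H626.AC1P

/-!
# P065, upper bound, block AC2 (helper626): `stAC2 : StAC2`
-/

set_option autoImplicit false

namespace Vale.Agent.P065.H626

open Finset
open Vale.Agent.P118.OF (Cov Sep)
open Vale.Agent.P118.H884 (card_le_mul_image)
open Vale.Agent.P065.H17 (card_sep sep_mono)

/-- maximal separated subset -/
lemma exists_net (X : Finset ℝ) {r : ℝ} (hr : 0 ≤ r) :
    ∃ Q ⊆ X, Sep r Q ∧ ∀ x ∈ X, ∃ q ∈ Q, |x - q| ≤ r := by
  classical
  obtain ⟨Q, hQ, hmax⟩ := exists_max_image (X.powerset.filter (fun Q => Sep r Q)) card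
    ⟨∅, mem_filter.2 ⟨empty_mem_powerset _, fun x hx => absurd hx (notMem_empty _)⟩⟩
  obtain ⟨hQ1, hQ2⟩ := mem_filter.1 hQ
  rw [mem_powerset] at hQ1
  refine ⟨Q, hQ1, hQ2, fun x hx => ?_⟩
  by_contra hcon
  push Not at hcon
  have hxQ : x ∉ Q := by
    intro h
    have := hcon x h
    simp at this
    linarith
  have h1 := hmax (insert x Q) (mem_filter.2 ⟨mem_powerset.2 (insert_subset hx hQ1), ?_⟩)
  · rw [card_insert_of_notMem hxQ] at h1
    omega
  · intro u hu v hv huv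
    rw [mem_insert] at hu hv
    rw [Real.dist_eq]
    rcases hu with rfl | hu <;> rcases hv with rfl | hv
    · exact absurd rfl huv
    · exact (hcon v hv).le
    · rw [abs_sub_comm]; exact (hcon u hu).le
    · have := hQ2 u hu v hv huv
      rwa [Real.dist_eq] at this

/-- real version of counting by fibres -/
lemma card_fib {α β : Type*} [DecidableEq β] (s : Finset α) (f : α → β) {M N : ℝ}
    (hM : 0 ≤ M) (h : ∀ b ∈ s.image f, (#(s.filter (fun a => f a = b)) : ℝ) ≤ M)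
    (hN : (#(s.image f) : ℝ) ≤ N) : (#s : ℝ) ≤ M * N := by
  have h1 : #s = ∑ b ∈ s.image f, #(s.filter (fun a => f a = b)) :=
    card_eq_sum_card_fiberwise (fun a ha => mem_coe.2 (mem_image_of_mem f ha))
  have h2 : (#s : ℝ) = ∑ b ∈ s.image f, (#(s.filter (fun a => f a = b)) : ℝ) := by
    exact_mod_cast h1
  rw [h2]
  calc _ ≤ ∑ b ∈ s.image f, M := sum_le_sum h
    _ = #(s.image f) * M := by rw [sum_const, nsmul_eq_mul]
    _ ≤ N * M := by gcongr
    _ = M * N := mul_comm _ _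

open Classical in
/-- Frostman for `X` -/
lemma frostX {K δ a t N : ℝ} {X P : Finset ℝ} (hK : 1 ≤ K) (hδ : 0 < δ) (hX : Sep δ X)
    (hcov : Cov δ N {z : ℝ | ∃ x ∈ X, ∃ y ∈ X, z = a * x - a * y}) (ha : 1 ≤ K * |a|)
    (ht : δ ≤ t) (hP : P ⊆ X) (hPs : Sep t P) (x₀ : ℝ) :
    (#(X.filter (fun x => |x - x₀| ≤ 2 * K * t)) : ℝ) * #P ≤ (2 * K + 2) * (6 * K + 2) * N := by
  obtain ⟨Z, hZc, hZ⟩ := hcov
  have ht0 : 0 < t := lt_of_lt_of_le hδ ht
  have ha0 : 0 < |a| := by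
    by_contra hcon
    have : |a| = 0 := le_antisymm (not_lt.1 hcon) (abs_nonneg _)
    rw [this, mul_zero] at ha
    linarith
  have hinv : ∀ u v : ℝ, |a * u| ≤ v → |u| ≤ K * v := by
    intro u v huv
    rw [abs_mul] at huv
    calc |u| ≤ K * |a| * |u| := le_mul_of_one_le_left (abs_nonneg _) ha
      _ = K * (|a| * |u|) := by ring
      _ ≤ K * v := by gcongr
  set I := X.filter (fun x => |x - x₀| ≤ 2 * K * t) with hI
  have hch : ∀ q ∈ I ×ˢ P, ∃ z ∈ Z, |a * q.1 - a * q.2 - z| ≤ δ := by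
    intro q hq
    obtain ⟨h1, h2⟩ := mem_product.1 hq
    obtain ⟨z, hz, hd⟩ := hZ (a * q.1 - a * q.2) ⟨q.1, (mem_filter.1 h1).1, q.2, hP h2, rfl⟩
    exact ⟨z, hz, by rwa [Real.dist_eq] at hd⟩
  choose! φ hφ1 hφ2 using hch
  have hc : (#(I ×ˢ P) : ℝ) = #I * #P := by rw [card_product]; push_cast; rfl
  rw [← hc]
  refine card_fib (I ×ˢ P) φ (by positivity) ?_ ?_
  · intro z _
    set s := (I ×ˢ P).filter (fun q => φ q = z) with hs
    have hs1 : ∀ q ∈ s, q.1 ∈ I ∧ q.2 ∈ P ∧ |a * q.1 - a * q.2 - z| ≤ δ := by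
      intro q hq
      obtain ⟨h1, h2⟩ := mem_filter.1 hq
      obtain ⟨h3, h4⟩ := mem_product.1 h1
      exact ⟨h3, h4, h2 ▸ hφ2 q h1⟩
    have hpair : ∀ q ∈ s, ∀ q' ∈ s, |(q.1 - q'.1) - (q.2 - q'.2)| ≤ 2 * K * δ := by
      intro q hq q' hq'
      have h1 := (hs1 q hq).2.2
      have h2 := (hs1 q' hq').2.2
      have h3 : |a * ((q.1 - q'.1) - (q.2 - q'.2))| ≤ 2 * δ := by
        have e : a * ((q.1 - q'.1) - (q.2 - q'.2))
            = (a * q.1 - a * q.2 - z) - (a * q'.1 - a * q'.2 - z) := by ring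
        rw [e]
        calc _ ≤ |a * q.1 - a * q.2 - z| + |a * q'.1 - a * q'.2 - z| := abs_sub _ _
          _ ≤ δ + δ := add_le_add h1 h2
          _ = 2 * δ := by ring
      calc _ ≤ K * (2 * δ) := hinv _ _ h3
        _ = 2 * K * δ := by ring
    refine card_fib s Prod.snd (by positivity) ?_ ?_
    · intro p _
      have h1 : #(s.filter (fun q => q.2 = p))
          = #((s.filter (fun q => q.2 = p)).image Prod.fst) := by
        rw [card_image_of_injOn]
        intro q hq q' hq' h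
        have h2 := (mem_filter.1 (mem_coe.1 hq)).2
        have h3 := (mem_filter.1 (mem_coe.1 hq')).2
        exact Prod.ext h (h2.trans h3.symm)
      rw [h1]
      have h2 := card_sep (δ := δ) (l := 2 * K * δ)
        (P := (s.filter (fun q => q.2 = p)).image Prod.fst) hδ (by positivity) ?_ ?_
      · have h3 : 2 * K * δ / δ = 2 * K := by field_simp
        rw [h3] at h2
        exact h2
      · refine sep_mono hX ?_
        intro x hx
        obtain ⟨q, hq, rfl⟩ := mem_image.1 hx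
        exact (mem_filter.1 (hs1 q (mem_filter.1 hq).1).1).1
      · intro x hx y hy
        obtain ⟨q, hq, rfl⟩ := mem_image.1 hx
        obtain ⟨q', hq', rfl⟩ := mem_image.1 hy
        obtain ⟨h4, h5⟩ := mem_filter.1 hq
        obtain ⟨h6, h7⟩ := mem_filter.1 hq'
        have h8 := hpair q h4 q' h6
        rw [h5, h7, sub_self, sub_zero] at h8
        exact h8
    · have h2 := card_sep (δ := t) (l := 6 * K * t) (P := s.image Prod.snd) ht0
        (by positivity) ?_ ?_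
      · have h3 : 6 * K * t / t = 6 * K := by field_simp
        rw [h3] at h2
        exact h2
      · refine sep_mono hPs ?_
        intro x hx
        obtain ⟨q, hq, rfl⟩ := mem_image.1 hx
        exact (hs1 q hq).2.1
      · intro x hx y hy
        obtain ⟨q, hq, rfl⟩ := mem_image.1 hx
        obtain ⟨q', hq', rfl⟩ := mem_image.1 hy
        have h4 := hpair q hq q' hq'
        have h5 := (mem_filter.1 (hs1 q hq).1).2
        have h6 := (mem_filter.1 (hs1 q' hq').1).2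
        have e : q.2 - q'.2 = (q.1 - x₀) - (q'.1 - x₀) - ((q.1 - q'.1) - (q.2 - q'.2)) := by
          ring
        rw [e]
        calc _ ≤ |(q.1 - x₀) - (q'.1 - x₀)| + |(q.1 - q'.1) - (q.2 - q'.2)| := abs_sub _ _
          _ ≤ (|q.1 - x₀| + |q'.1 - x₀|) + 2 * K * δ := add_le_add (abs_sub _ _) h4
          _ ≤ (2 * K * t + 2 * K * t) + 2 * K * t := by gcongr
          _ = 6 * K * t := by ring
  · refine le_trans ?_ hZc
    have : (I ×ˢ P).image φ ⊆ Z := by
      intro z hz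
      obtain ⟨q, hq, rfl⟩ := mem_image.1 hz
      exact hφ1 q hq
    exact_mod_cast card_le_card this

open Classical in
/-- Frostman for `B'` -/
lemma frostB {K n δ a t U N L₁ : ℝ} {X B' P : Finset ℝ} {G : Finset (ℝ × ℝ)} (hK : 1 ≤ K)
    (hδ : 0 < δ) (hB : Sep δ B') (hL : 0 ≤ L₁) (hU0 : 0 ≤ U)
    (hdeg : ∀ b ∈ B', n ≤ L₁ * #(X.filter (fun x => (b, x) ∈ G)))
    (hcov : Cov δ N {z : ℝ | ∃ p ∈ G, z = p.1 + a * p.2}) (ha : 1 ≤ K * |a|) (ht : δ ≤ t)
    (hX : ∀ x₀, (#(X.filter (fun x => |x - x₀| ≤ 2 * K * t)) : ℝ) * #P ≤ U) (b₀ : ℝ) :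
    (#(B'.filter (fun b => |b - b₀| ≤ t)) : ℝ) * n * #P ≤ L₁ * (4 * U * N) := by
  obtain ⟨Z, hZc, hZ⟩ := hcov
  have ht0 : 0 < t := lt_of_lt_of_le hδ ht
  have ha0 : 0 < |a| := by
    by_contra hcon
    have : |a| = 0 := le_antisymm (not_lt.1 hcon) (abs_nonneg _)
    rw [this, mul_zero] at ha
    linarith
  have hinv : ∀ u v : ℝ, |a * u| ≤ v → |u| ≤ K * v := by
    intro u v huv
    rw [abs_mul] at huv
    calc |u| ≤ K * |a| * |u| := le_mul_of_one_le_left (abs_nonneg _) ha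
      _ = K * (|a| * |u|) := by ring
      _ ≤ K * v := by gcongr
  rcases P.eq_empty_or_nonempty with hP | hP
  · rw [hP]
    have hN0 : 0 ≤ N := le_trans (Nat.cast_nonneg _) hZc
    simp only [card_empty, Nat.cast_zero, mul_zero]
    positivity
  have hPpos : (0 : ℝ) < #P := by exact_mod_cast card_pos.2 hP
  set I := B'.filter (fun b => |b - b₀| ≤ t) with hI
  set E := (I ×ˢ X).filter (fun q => q ∈ G) with hE
  have hch : ∀ q ∈ E, ∃ z ∈ Z, |q.1 + a * q.2 - z| ≤ δ := by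
    intro q hq
    obtain ⟨z, hz, hd⟩ := hZ (q.1 + a * q.2) ⟨q, (mem_filter.1 hq).2, rfl⟩
    exact ⟨z, hz, by rwa [Real.dist_eq] at hd⟩
  choose! φ hφ1 hφ2 using hch
  have h1 : (#I : ℝ) * n ≤ L₁ * #E := by
    have e1 : #E = ∑ b ∈ I, #(E.filter (fun q => q.1 = b)) :=
      card_eq_sum_card_fiberwise (fun q hq =>
        mem_coe.2 (mem_product.1 (mem_filter.1 (mem_coe.1 hq)).1).1)
    have e2 : ∀ b ∈ I, #(X.filter (fun x => (b, x) ∈ G)) ≤ #(E.filter (fun q => q.1 = b)) := by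
      intro b hb
      rw [← card_image_of_injective (X.filter (fun x => (b, x) ∈ G)) (Prod.mk_right_injective b)]
      refine card_le_card ?_
      intro q hq
      obtain ⟨x, hx, rfl⟩ := mem_image.1 hq
      obtain ⟨h2, h3⟩ := mem_filter.1 hx
      exact mem_filter.2 ⟨mem_filter.2 ⟨mem_product.2 ⟨hb, h2⟩, h3⟩, rfl⟩
    rw [e1]
    push_cast
    rw [mul_sum]
    calc (#I : ℝ) * n = ∑ b ∈ I, n := by rw [sum_const, nsmul_eq_mul]
      _ ≤ _ := by
        refine sum_le_sum fun b hb => (hdeg b (mem_filter.1 hb).1).trans ?_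
        gcongr
        exact e2 b hb
  have h2 : (#E : ℝ) ≤ (4 * (U / #P)) * N := by
    refine card_fib E φ (by positivity) ?_ ?_
    · intro z _
      set s := E.filter (fun q => φ q = z) with hs
      have hs1 : ∀ q ∈ s, q.1 ∈ I ∧ q.2 ∈ X ∧ |q.1 + a * q.2 - z| ≤ δ := by
        intro q hq
        obtain ⟨h1, h2⟩ := mem_filter.1 hq
        obtain ⟨h3, h4⟩ := mem_product.1 (mem_filter.1 h1).1
        exact ⟨h3, h4, h2 ▸ hφ2 q h1⟩
      refine card_fib s Prod.snd (by norm_num) ?_ ?_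
      · intro x _
        have h1 : #(s.filter (fun q => q.2 = x))
            = #((s.filter (fun q => q.2 = x)).image Prod.fst) := by
          rw [card_image_of_injOn]
          intro q hq q' hq' h
          have h2 := (mem_filter.1 (mem_coe.1 hq)).2
          have h3 := (mem_filter.1 (mem_coe.1 hq')).2
          exact Prod.ext h (h2.trans h3.symm)
        rw [h1]
        have h2 := card_sep (δ := δ) (l := 2 * δ)
          (P := (s.filter (fun q => q.2 = x)).image Prod.fst) hδ (by positivity) ?_ ?_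
        · have h3 : 2 * δ / δ = 2 := by field_simp
          rw [h3] at h2
          linarith
        · refine sep_mono hB ?_
          intro b hb
          obtain ⟨q, hq, rfl⟩ := mem_image.1 hb
          exact (mem_filter.1 (hs1 q (mem_filter.1 hq).1).1).1
        · intro b hb b' hb'
          obtain ⟨q, hq, rfl⟩ := mem_image.1 hb
          obtain ⟨q', hq', rfl⟩ := mem_image.1 hb'
          obtain ⟨h4, h5⟩ := mem_filter.1 hq
          obtain ⟨h6, h7⟩ := mem_filter.1 hq'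
          have h8 := (hs1 q h4).2.2
          have h9 := (hs1 q' h6).2.2
          rw [h5] at h8
          rw [h7] at h9
          have e : q.1 - q'.1 = (q.1 + a * x - z) - (q'.1 + a * x - z) := by ring
          rw [e]
          calc _ ≤ |q.1 + a * x - z| + |q'.1 + a * x - z| := abs_sub _ _
            _ ≤ δ + δ := add_le_add h8 h9
            _ = 2 * δ := by ring
      · rw [le_div_iff₀ hPpos]
        refine le_trans ?_ (hX ((z - b₀) / a))
        gcongr
        intro x hx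
        obtain ⟨q, hq, rfl⟩ := mem_image.1 hx
        obtain ⟨h3, h4, h5⟩ := hs1 q hq
        refine mem_filter.2 ⟨h4, ?_⟩
        have h6 := (mem_filter.1 h3).2
        have ha' : a ≠ 0 := abs_pos.1 ha0
        have h7 : |a * (q.2 - (z - b₀) / a)| ≤ 2 * t := by
          have e : a * (q.2 - (z - b₀) / a) = (q.1 + a * q.2 - z) - (q.1 - b₀) := by
            field_simp
            ring
          rw [e]
          calc _ ≤ |q.1 + a * q.2 - z| + |q.1 - b₀| := abs_sub _ _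
            _ ≤ δ + t := add_le_add h5 h6
            _ ≤ 2 * t := by linarith
        calc _ ≤ K * (2 * t) := hinv _ _ h7
          _ = 2 * K * t := by ring
    · refine le_trans ?_ hZc
      have : E.image φ ⊆ Z := by
        intro z hz
        obtain ⟨q, hq, rfl⟩ := mem_image.1 hz
        exact hφ1 q hq
      exact_mod_cast card_le_card this
  calc (#I : ℝ) * n * #P ≤ (L₁ * #E) * #P := by gcongr
    _ ≤ (L₁ * ((4 * (U / #P)) * N)) * #P := by gcongr
    _ = L₁ * (4 * U * N) := by field_simp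

open Classical in
/-- number of cells of `B' ×ˢ X` in a box -/
lemma box_count {al t r : ℝ} {B' X : Finset ℝ} {M : ℝ} (hM0 : 0 ≤ M)
    (hM : ∀ b₀, (#(B'.filter (fun b => |b - b₀| ≤ t)) : ℝ) ≤ M) (s₀ h₀ : ℝ) :
    (#((B' ×ˢ X).filter (Box al t r s₀ h₀)) : ℝ) ≤
      M * #(X.filter (fun x => |x - h₀| ≤ r)) := by
  refine card_fib _ Prod.snd hM0 ?_ ?_
  · intro x _
    have h1 : #(((B' ×ˢ X).filter (Box al t r s₀ h₀)).filter (fun q => q.2 = x))
        = #((((B' ×ˢ X).filter (Box al t r s₀ h₀)).filter (fun q => q.2 = x)).image Prod.fst) := by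
      rw [card_image_of_injOn]
      intro q hq q' hq' h
      have h2 := (mem_filter.1 (mem_coe.1 hq)).2
      have h3 := (mem_filter.1 (mem_coe.1 hq')).2
      exact Prod.ext h (h2.trans h3.symm)
    rw [h1]
    refine le_trans ?_ (hM (s₀ - al * x))
    gcongr
    intro b hb
    obtain ⟨q, hq, rfl⟩ := mem_image.1 hb
    obtain ⟨h4, h5⟩ := mem_filter.1 hq
    obtain ⟨h6, h7⟩ := mem_filter.1 h4
    refine mem_filter.2 ⟨(mem_product.1 h6).1, ?_⟩
    have h8 := h7.1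
    rw [h5] at h8
    have e : q.1 - (s₀ - al * x) = q.1 + al * x - s₀ := by ring
    rw [e]
    exact h8
  · gcongr
    intro x hx
    obtain ⟨q, hq, rfl⟩ := mem_image.1 hx
    obtain ⟨h6, h7⟩ := mem_filter.1 hq
    exact mem_filter.2 ⟨(mem_product.1 h6).2, h7.2⟩

open Classical in
/-- number of layers -/
lemma layers {r : ℝ} (hr : 0 < r) {X Q : Finset ℝ} {Y : Finset (ℝ × ℝ)}
    (hY : ∀ q ∈ Y, q.2 ∈ X) (hQ : ∀ x ∈ X, ∃ q ∈ Q, |x - q| ≤ r) :
    (#(Y.image (fun q : ℝ × ℝ => ⌊q.2 / r⌋)) : ℝ) ≤ 3 * #Q := by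
  have h1 : Y.image (fun q : ℝ × ℝ => ⌊q.2 / r⌋) ⊆
      Q.biUnion (fun q => Icc (⌊q / r⌋ - 1) (⌊q / r⌋ + 1)) := by
    intro j hj
    obtain ⟨p, hp, rfl⟩ := mem_image.1 hj
    obtain ⟨q, hq, hd⟩ := hQ p.2 (hY p hp)
    refine mem_biUnion.2 ⟨q, hq, ?_⟩
    have h2 : |p.2 / r - q / r| ≤ 1 := by
      rw [← sub_div, abs_div, abs_of_pos hr, div_le_one hr]
      exact hd
    obtain ⟨h3, h4⟩ := abs_le.1 h2
    rw [mem_Icc]
    constructor
    · have : (⌊q / r⌋ : ℝ) ≤ q / r := Int.floor_le _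
      refine Int.le_floor.2 ?_
      push_cast
      linarith
    · have h5 : q / r < ⌊q / r⌋ + 1 := Int.lt_floor_add_one _
      have : p.2 / r < ((⌊q / r⌋ + 1 + 1 : ℤ) : ℝ) := by push_cast; linarith
      have := Int.floor_lt.2 this
      omega
  have h2 : #(Q.biUnion (fun q => Icc (⌊q / r⌋ - 1) (⌊q / r⌋ + 1))) ≤ #Q * 3 := by
    refine card_biUnion_le_card_mul _ _ _ ?_
    intro q _
    rw [Int.card_Icc]
    have : (⌊q / r⌋ + 1 + 1 - (⌊q / r⌋ - 1)) = 3 := by ring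
    rw [this]; rfl
  have h3 : (#(Y.image (fun q : ℝ × ℝ => ⌊q.2 / r⌋)) : ℝ) ≤ #Q * 3 := by
    exact_mod_cast (card_le_card h1).trans h2
  linarith

/-- a net is at least 1/4 of a separated set -/
lemma sep_le_net {r : ℝ} (hr : 0 < r) {X Q₀ Q : Finset ℝ} (hQ₀ : Q₀ ⊆ X) (hs : Sep r Q₀)
    (hQ : ∀ x ∈ X, ∃ q ∈ Q, |x - q| ≤ r) : (#Q₀ : ℝ) ≤ 4 * #Q := by
  classical
  have hch : ∀ x ∈ Q₀, ∃ q ∈ Q, |x - q| ≤ r := fun x hx => hQ x (hQ₀ hx)
  choose! φ hφ1 hφ2 using hch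
  refine card_fib Q₀ φ (by norm_num) ?_ ?_
  · intro q _
    have h2 := card_sep (δ := r) (l := 2 * r) (P := Q₀.filter (fun x => φ x = q)) hr
      (by positivity) (sep_mono hs (filter_subset _ _)) ?_
    · have h3 : 2 * r / r = 2 := by field_simp
      rw [h3] at h2
      linarith
    · intro x hx y hy
      obtain ⟨h4, h5⟩ := mem_filter.1 hx
      obtain ⟨h6, h7⟩ := mem_filter.1 hy
      have h8 := hφ2 x h4
      have h9 := hφ2 y h6
      rw [h5] at h8
      rw [h7] at h9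
      have e : x - y = (x - q) - (y - q) := by ring
      rw [e]
      calc _ ≤ |x - q| + |y - q| := abs_sub _ _
        _ ≤ r + r := add_le_add h8 h9
        _ = 2 * r := by ring
  · gcongr
    intro q hq
    obtain ⟨x, hx, rfl⟩ := mem_image.1 hq
    exact hφ1 x hx

/-- arithmetic of the segment step -/
lemma ar3 {K Ks n x p q M u : ℝ} {c : ℕ} (hK : 3072 ≤ K) (hKs : Ks = K ^ (c + 1)) (hn : 0 < n)
    (hp : 0 < p) (hq : 0 < q) (hM : M = K ^ (2 * c + 5) * n / p)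
    (hu : u = K ^ (c + 3) * n / q)
    (h : x * n ≤ 400 * (2 * K + 1) ^ 4 * Ks ^ 9 * (3 * q) ^ 2 * (M * u)) :
    x * p ≤ K ^ (12 * c + 23) * q * n := by
  have hK0 : 0 < K := by linarith
  have h1 : (2 * K + 1) ^ 4 ≤ (3 * K) ^ 4 := by gcongr; linarith
  have h2 : (291600 : ℝ) ≤ K ^ 2 := by nlinarith
  have h3 : n * p * q * (x * n) ≤ n * p * q *
      (400 * (2 * K + 1) ^ 4 * Ks ^ 9 * (3 * q) ^ 2 * (M * u)) := by gcongr
  have h4 : n * p * q * (400 * (2 * K + 1) ^ 4 * Ks ^ 9 * (3 * q) ^ 2 * (M * u))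
      = 3600 * (2 * K + 1) ^ 4 * Ks ^ 9 * q ^ 2 * (K ^ (2 * c + 5) * K ^ (c + 3)) * n ^ 3 := by
    rw [hM, hu]; field_simp; ring
  have h5 : 3600 * (2 * K + 1) ^ 4 * Ks ^ 9 * q ^ 2 * (K ^ (2 * c + 5) * K ^ (c + 3)) * n ^ 3
      ≤ K ^ 6 * Ks ^ 9 * q ^ 2 * (K ^ (2 * c + 5) * K ^ (c + 3)) * n ^ 3 := by
    have hKs0 : 0 < Ks := by rw [hKs]; positivity
    have : 3600 * (2 * K + 1) ^ 4 ≤ K ^ 6 := by
      calc 3600 * (2 * K + 1) ^ 4 ≤ 3600 * (3 * K) ^ 4 := by gcongr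
        _ = 291600 * K ^ 4 := by ring
        _ ≤ K ^ 2 * K ^ 4 := by gcongr
        _ = K ^ 6 := by ring
    gcongr
  have h6 : K ^ 6 * Ks ^ 9 * q ^ 2 * (K ^ (2 * c + 5) * K ^ (c + 3)) * n ^ 3
      = (n ^ 2 * q) * (K ^ (12 * c + 23) * q * n) := by
    rw [hKs]; ring
  have h7 : (n ^ 2 * q) * (x * p) ≤ (n ^ 2 * q) * (K ^ (12 * c + 23) * q * n) := by
    calc (n ^ 2 * q) * (x * p) = n * p * q * (x * n) := by ring
      _ ≤ _ := h3
      _ = _ := h4
      _ ≤ _ := h5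
      _ = _ := h6
  exact le_of_mul_le_mul_left h7 (by positivity)

open Classical in
/-- the segment lemma inside `B' ×ˢ X` -/
lemma seg_step {K n m δ : ℝ} {A B H : Finset ℝ} {S : ℝ → Finset ℝ}
    {C : ℝ → ℝ → Finset (ℝ × ℝ)} {P0 : Finset (ℝ × ℝ)} (hg : GridIn K n m δ A B H S C P0)
    {c : ℕ} {A' X B' Q₀ : Finset ℝ} (hA' : A' ⊆ A)
    (hdense : ∀ a ∈ A', n ^ 2 ≤ K ^ c *
      #(((S a).biUnion (fun s => C a s)).filter (fun p => p.1 ∈ B' ∧ p.2 ∈ X)))
    {t r M u : ℝ} (ht : δ ≤ t) (htr : t ≤ r) (hr1 : r ≤ 1) (hM0 : 0 ≤ M)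
    (hQ₀n : ∀ x ∈ X, ∃ q ∈ Q₀, |x - q| ≤ r)
    (hBM : ∀ b₀, (#(B'.filter (fun b => |b - b₀| ≤ t)) : ℝ) ≤ M)
    (hXu : ∀ h₀, (#(X.filter (fun x => |x - h₀| ≤ r)) : ℝ) ≤ u) {al : ℝ} (hal : al ∈ A') :
    (#(A'.filter (fun a => |a - al| ≤ t / r)) : ℝ) * n ≤
      400 * (2 * K + 1) ^ 4 * (K ^ (c + 1)) ^ 9 * (3 * #Q₀) ^ 2 * (M * u) := by
  have hK := hg.hK
  have hδ := hg.δ0
  have hn := hg.n0
  have hm := hg.m0
  have hK1 : 1 ≤ K := by linarith
  have hK0 : 0 < K := by linarith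
  have ht0 : 0 < t := lt_of_lt_of_le hδ ht
  have hr0 : 0 < r := lt_of_lt_of_le ht0 htr
  have hpow : ∀ {i j : ℕ}, i ≤ j → K ^ i ≤ K ^ j := fun h => pow_le_pow_right₀ hK1 h
  have hKs1 : 1 ≤ K ^ (c + 1) := one_le_pow₀ hK1
  have hKKs : K ≤ K ^ (c + 1) := by
    calc K = K ^ 1 := (pow_one K).symm
      _ ≤ K ^ (c + 1) := hpow (by omega)
  have hcKs : K ^ c ≤ K ^ (c + 1) := hpow (by omega)
  generalize K ^ (c + 1) = Ks at hKs1 hKKs hcKs ⊢
  generalize K ^ c = Kc at hdense hcKs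
  refine seg (m := m) (d := δ) (t := t) (r := r) (al := al) (Y := B' ×ˢ X) (P0 := P0)
    (S := S) (C := fun a s => (C a s).filter (fun p => p.1 ∈ B' ∧ p.2 ∈ X))
    ⟨hKs1, hn, hm, ht0, hr0, ht, hK1, ?_, ?_, ?_, ?_, ?_, ?_, ?_, ?_, ?_, ?_⟩
  · exact fun a ha => (mem_filter.1 ha).2
  · intro a ha
    exact (hg.cS a (hA' (mem_filter.1 ha).1)).trans (by gcongr)
  · intro a _ s _ p hp
    exact mem_product.2 (mem_filter.1 hp).2
  · intro a ha s hs s' hs' hne
    exact (hg.disj a (hA' (mem_filter.1 ha).1) s hs s' hs' hne).mono (filter_subset _ _)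
      (filter_subset _ _)
  · intro a ha s hs q hq
    exact hg.near a (hA' (mem_filter.1 ha).1) s hs q (mem_filter.1 hq).1
  · intro a ha
    have h1 := hdense a (mem_filter.1 ha).1
    have h2 : ((S a).biUnion (fun s => C a s)).filter (fun p => p.1 ∈ B' ∧ p.2 ∈ X) ⊆
        (S a).biUnion (fun s => (C a s).filter (fun p => p.1 ∈ B' ∧ p.2 ∈ X)) := by
      intro p hp
      obtain ⟨h3, h4⟩ := mem_filter.1 hp
      obtain ⟨s, hs, hps⟩ := mem_biUnion.1 h3
      exact mem_biUnion.2 ⟨s, hs, mem_filter.2 ⟨hps, h4⟩⟩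
    have h3 : (#(((S a).biUnion (fun s => C a s)).filter (fun p => p.1 ∈ B' ∧ p.2 ∈ X)) : ℝ)
        ≤ ∑ s ∈ S a, (#((C a s).filter (fun p => p.1 ∈ B' ∧ p.2 ∈ X)) : ℝ) := by
      exact_mod_cast (card_le_card h2).trans card_biUnion_le
    have h4 : (0 : ℝ) ≤ #(((S a).biUnion (fun s => C a s)).filter
        (fun p => p.1 ∈ B' ∧ p.2 ∈ X)) := Nat.cast_nonneg _
    exact h1.trans (mul_le_mul hcKs h3 h4 (by linarith))
  · exact layers hr0 (fun q hq => (mem_product.1 hq).2) hQ₀n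
  · intro s₀ h₀
    exact (box_count hM0 hBM s₀ h₀).trans (mul_le_mul_of_nonneg_left (hXu h₀) hM0)
  · refine hg.cP.trans ?_
    have : 0 ≤ n ^ 2 * m := by positivity
    calc K * n ^ 2 * m = K * (n ^ 2 * m) := by ring
      _ ≤ Ks * (n ^ 2 * m) := mul_le_mul_of_nonneg_right hKKs this
      _ = _ := by ring
  · intro s₀ h₀
    have h1 := hg.star al (hA' hal) t r ht htr hr1 s₀ h₀
    have h2 : ∑ a ∈ A'.filter (fun a => |a - al| ≤ t / r), ∑ s ∈ S a,
        (m * (#(((C a s).filter (fun p => p.1 ∈ B' ∧ p.2 ∈ X)).filter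
          (Box al t r s₀ h₀)) : ℝ)) ^ 3
        ≤ ∑ a ∈ A.filter (fun a => |a - al| ≤ t / r), ∑ s ∈ S a,
          (m * (#((C a s).filter (Box al t r s₀ h₀)) : ℝ)) ^ 3 := by
      refine le_trans (sum_le_sum (g := fun a => ∑ s ∈ S a,
        (m * (#((C a s).filter (Box al t r s₀ h₀)) : ℝ)) ^ 3) ?_)
        (sum_le_sum_of_subset_of_nonneg (filter_subset_filter _ hA') ?_)
      · intro a _
        refine sum_le_sum fun s _ => ?_
        have h3 : (#(((C a s).filter (fun p => p.1 ∈ B' ∧ p.2 ∈ X)).filter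
            (Box al t r s₀ h₀)) : ℝ) ≤ #((C a s).filter (Box al t r s₀ h₀)) := by
          exact_mod_cast card_le_card (filter_subset_filter _ (filter_subset _ _))
        exact pow_le_pow_left₀ (by positivity) (mul_le_mul_of_nonneg_left h3 hm.le) 3
      · intro a _ _
        exact sum_nonneg fun s _ => by positivity
    refine h2.trans (h1.trans ?_)
    have h3 : 0 ≤ (n * m) * (#(P0.filter (Box al (K * t) (K * r) s₀ h₀)) : ℝ) ^ 2 := by
      positivity
    calc K * (n * m) * (#(P0.filter (Box al (K * t) (K * r) s₀ h₀)) : ℝ) ^ 2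
        = K * ((n * m) * (#(P0.filter (Box al (K * t) (K * r) s₀ h₀)) : ℝ) ^ 2) := by ring
      _ ≤ Ks * ((n * m) * (#(P0.filter (Box al (K * t) (K * r) s₀ h₀)) : ℝ) ^ 2) :=
        mul_le_mul_of_nonneg_right hKKs h3
      _ = _ := by ring

open Classical in
/-- **AC2** -/
theorem stAC2 : StAC2 := by
  obtain ⟨c, hc⟩ := ac1'
  refine ⟨13 * c + 25, ?_⟩
  intro K n m δ A B H S C P0 hg
  obtain ⟨hK, hδ, hn, hm, hcA, hA1, hsB, hsH, hcB, hcH, hcS, hsub, hdisj, hnear, hfull, -,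
    -⟩ := id hg
  have hK1 : 1 ≤ K := by linarith
  have hK0 : 0 < K := by linarith
  have hAne : A.Nonempty := by
    rw [← card_pos]
    by_contra hcon
    have : #A = 0 := by omega
    rw [this] at hcA
    simp at hcA
    linarith
  set G : ℝ → Finset (ℝ × ℝ) := fun a => (S a).biUnion (fun s => C a s) with hG
  have hGmem : ∀ a p, p ∈ G a ↔ ∃ s ∈ S a, p ∈ C a s := fun a p => mem_biUnion
  obtain ⟨a₀, ha₀, A', hA', X, hX, B', hB', hA'c, hXc, hcov, hdeg, hdense⟩ :=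
    hc K n δ A B H G hK hδ hn hAne hA1 hsB hsH hcB hcH (by
      intro a ha
      refine ⟨?_, ?_, S a, hcS a ha, ?_⟩
      · intro p hp
        obtain ⟨s, hs, hps⟩ := (hGmem a p).1 hp
        exact hsub a ha s hs p hps
      · refine (hfull a ha).trans ?_
        have : #(G a) = ∑ s ∈ S a, #(C a s) :=
          card_biUnion (fun s hs s' hs' hne => hdisj a ha s hs s' hs' hne)
        rw [this]
        push_cast
        exact le_refl _
      · rintro z ⟨p, hp, rfl⟩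
        obtain ⟨s, hs, hps⟩ := (hGmem a p).1 hp
        exact ⟨s, hs, by rw [Real.dist_eq]; exact hnear a ha s hs p hps⟩)
  have hpow : ∀ {i j : ℕ}, i ≤ j → K ^ i ≤ K ^ j := fun h => pow_le_pow_right₀ hK1 h
  have hXpos : (0 : ℝ) < #X := by
    by_contra hcon
    have : (#X : ℝ) = 0 := le_antisymm (not_lt.1 hcon) (Nat.cast_nonneg _)
    rw [this, mul_zero] at hXc
    linarith
  have hnA' : n ≤ K ^ (c + 1) * #A' := by
    calc n ≤ K * #A := hcA
      _ ≤ K * (K ^ c * #A') := by gcongr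
      _ = _ := by ring
  have hA'pos : (0 : ℝ) < #A' := by
    by_contra hcon
    have : (#A' : ℝ) = 0 := le_antisymm (not_lt.1 hcon) (Nat.cast_nonneg _)
    rw [this, mul_zero] at hnA'
    linarith
  obtain ⟨a₁, ha₁⟩ : A'.Nonempty := by
    rw [← card_pos]; exact_mod_cast hA'pos
  have hXs : Sep δ X := sep_mono hsH hX
  have hUK : (2 * K + 2) * (6 * K + 2) * (K ^ c * n) ≤ K ^ (c + 3) * n := by
    have h1 : (2 * K + 2) * (6 * K + 2) ≤ K ^ 3 := by
      have : (2 * K + 2) * (6 * K + 2) ≤ (3 * K) * (7 * K) := by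
        gcongr <;> linarith
      have h3 : (3 * K) * (7 * K) ≤ K ^ 3 := by
        have : 21 * K ^ 2 ≤ K * K ^ 2 := by gcongr; linarith
        calc (3 * K) * (7 * K) = 21 * K ^ 2 := by ring
          _ ≤ K * K ^ 2 := this
          _ = K ^ 3 := by ring
      linarith
    calc (2 * K + 2) * (6 * K + 2) * (K ^ c * n) ≤ K ^ 3 * (K ^ c * n) := by gcongr
      _ = _ := by ring
  have hcovX : Cov δ (K ^ c * n) {z : ℝ | ∃ x ∈ X, ∃ y ∈ X, z = a₁ * x - a₁ * y} :=
    hcov a₁ ha₁ a₁ ha₁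
  have hfX : ∀ t, δ ≤ t → ∀ P ⊆ X, Sep t P → ∀ x₀,
      (#(X.filter (fun x => |x - x₀| ≤ 2 * K * t)) : ℝ) * #P ≤ K ^ (c + 3) * n :=
    fun t ht P hP hPs x₀ =>
      (frostX hK1 hδ hXs hcovX (hA1 a₁ (hA' ha₁)).1 ht hP hPs x₀).trans hUK
  refine ⟨A', X, ⟨hA', hX, ?_, ?_, ?_, ?_⟩⟩
  · exact hA'c.trans (mul_le_mul_of_nonneg_right (hpow (by omega)) (Nat.cast_nonneg _))
  · exact hXc.trans (mul_le_mul_of_nonneg_right (hpow (by omega)) (Nat.cast_nonneg _))
  · intro a ha b hb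
    obtain ⟨Z, h1, h2⟩ := hcov a ha b hb
    exact ⟨Z, h1.trans (mul_le_mul_of_nonneg_right (hpow (by omega)) hn.le), h2⟩
  -- SUBA
  intro t r ht htr hr1 P Q R hP hPs hQ hQn hR hRn
  have ht0 : 0 < t := lt_of_lt_of_le hδ ht
  have hr0 : 0 < r := lt_of_lt_of_le ht0 htr
  rcases P.eq_empty_or_nonempty with hPe | hPne
  · rw [hPe]
    simp only [card_empty, Nat.cast_zero]
    positivity
  have hPpos : (0 : ℝ) < #P := by exact_mod_cast card_pos.2 hPne
  obtain ⟨Q₀, hQ₀, hQ₀s, hQ₀n⟩ := exists_net X hr0.le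
  have hQ₀pos : (0 : ℝ) < #Q₀ := by
    have hXne : X.Nonempty := by rw [← card_pos]; exact_mod_cast hXpos
    obtain ⟨x, hx⟩ := hXne
    obtain ⟨q, hq, -⟩ := hQ₀n x hx
    exact_mod_cast card_pos.2 ⟨q, hq⟩
  set M : ℝ := K ^ (2 * c + 5) * n / #P with hM
  set u : ℝ := K ^ (c + 3) * n / #Q₀ with hu
  have hM0 : 0 ≤ M := by positivity
  have hu0 : 0 ≤ u := by positivity
  have hBM : ∀ b₀, (#(B'.filter (fun b => |b - b₀| ≤ t)) : ℝ) ≤ M := by
    intro b₀
    have h1 := frostB (n := n) (L₁ := K ^ c) (N := K * n) (U := K ^ (c + 3) * n)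
      (G := G a₀) (a := a₀) hK1 hδ (sep_mono hsB hB')
      (by positivity) (by positivity) hdeg ⟨S a₀, hcS a₀ ha₀, by
        rintro z ⟨p, hp, rfl⟩
        obtain ⟨s, hs, hps⟩ := (hGmem a₀ p).1 hp
        exact ⟨s, hs, by rw [Real.dist_eq]; exact hnear a₀ ha₀ s hs p hps⟩⟩
      (hA1 a₀ ha₀).1 ht (hfX t ht P hP hPs) b₀
    rw [hM, le_div_iff₀ hPpos]
    have h2 : n * ((#(B'.filter (fun b => |b - b₀| ≤ t)) : ℝ) * #P)
        ≤ n * (K ^ (2 * c + 5) * n) := by
      calc n * ((#(B'.filter (fun b => |b - b₀| ≤ t)) : ℝ) * #P)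
          = (#(B'.filter (fun b => |b - b₀| ≤ t)) : ℝ) * n * #P := by ring
        _ ≤ K ^ c * (4 * (K ^ (c + 3) * n) * (K * n)) := h1
        _ = 4 * (K ^ (2 * c + 4) * n * n) := by ring
        _ ≤ K * (K ^ (2 * c + 4) * n * n) := by gcongr; linarith
        _ = n * (K ^ (2 * c + 5) * n) := by ring
    exact le_of_mul_le_mul_left h2 hn
  have hXu : ∀ h₀, (#(X.filter (fun x => |x - h₀| ≤ r)) : ℝ) ≤ u := by
    intro h₀
    rw [hu, le_div_iff₀ hQ₀pos]
    refine le_trans ?_ (hfX r (ht.trans htr) Q₀ hQ₀ hQ₀s h₀)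
    have h1 : X.filter (fun x => |x - h₀| ≤ r) ⊆ X.filter (fun x => |x - h₀| ≤ 2 * K * r) := by
      intro x hx
      obtain ⟨h2, h3⟩ := mem_filter.1 hx
      exact mem_filter.2 ⟨h2, h3.trans (by nlinarith)⟩
    gcongr
  have hseg : ∀ al ∈ A', (#(A'.filter (fun a => |a - al| ≤ t / r)) : ℝ) * #P
      ≤ K ^ (12 * c + 23) * #Q₀ * n := fun al hal =>
    ar3 hK rfl hn hPpos hQ₀pos hM hu
      (seg_step hg hA' hdense ht htr hr1 hM0 hQ₀n hBM hXu hal)
  -- covering by intervals of length `t / r`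
  have hsum : (#A' : ℝ) * #P ≤ #R * (K ^ (12 * c + 23) * #Q₀ * n) := by
    have h1 : A' ⊆ R.biUnion (fun al => A'.filter (fun a => |a - al| ≤ t / r)) := by
      intro a ha
      obtain ⟨b, hb, hd⟩ := hRn a ha
      exact mem_biUnion.2 ⟨b, hb, mem_filter.2 ⟨ha, hd⟩⟩
    have h2 : (#A' : ℝ) ≤ ∑ al ∈ R, (#(A'.filter (fun a => |a - al| ≤ t / r)) : ℝ) := by
      exact_mod_cast (card_le_card h1).trans card_biUnion_le
    calc (#A' : ℝ) * #P ≤ (∑ al ∈ R, (#(A'.filter (fun a => |a - al| ≤ t / r)) : ℝ)) * #P := by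
          gcongr
      _ = ∑ al ∈ R, (#(A'.filter (fun a => |a - al| ≤ t / r)) : ℝ) * #P := by rw [sum_mul]
      _ ≤ ∑ al ∈ R, (K ^ (12 * c + 23) * #Q₀ * n) := sum_le_sum fun al hal => hseg al (hR hal)
      _ = _ := by rw [sum_const, nsmul_eq_mul]
  have hQ4 : (#Q₀ : ℝ) ≤ 4 * #Q := sep_le_net hr0 hQ₀ hQ₀s hQn
  have h1 : (#A' : ℝ) * #P ≤ #A' * (K ^ (13 * c + 25) * #R * #Q) := by
    calc (#A' : ℝ) * #P ≤ #R * (K ^ (12 * c + 23) * #Q₀ * n) := hsum
      _ ≤ #R * (K ^ (12 * c + 23) * (4 * #Q) * (K ^ (c + 1) * #A')) := by gcongr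
      _ = 4 * (K ^ (13 * c + 24) * (#R * #Q * #A')) := by ring
      _ ≤ K * (K ^ (13 * c + 24) * (#R * #Q * #A')) := by gcongr; linarith
      _ = _ := by ring
  exact le_of_mul_le_mul_left h1 hA'pos

end Vale.Agent.P065.H626
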