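import Vale.Agent.P065.H626.AC2

/-!
# P065, upper bound (helper626): AC2 with strips of width `K δ` and the field `heavy`
-/

set_option autoImplicit false

namespace Vale.Agent.P065.H626

open Finset
open Vale.Agent.P118.OF (Cov Sep)
open Vale.Agent.P065.H17 (card_sep sep_mono)

open Classical in
/-- Frostman for `X`, any radius -/
lemma frostX2 {K δ a t N ρ : ℝ} {X P : Finset ℝ} (hK : 1 ≤ K) (hδ : 0 < δ) (hX : Sep δ X)
    (hcov : Cov δ N {z : ℝ | ∃ x ∈ X, ∃ y ∈ X, z = a * x - a * y}) (ha : 1 ≤ K * |a|)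
    (ht : 0 < t) (hρ : 0 ≤ ρ) (hP : P ⊆ X) (hPs : Sep t P) (x₀ : ℝ) :
    (#(X.filter (fun x => |x - x₀| ≤ ρ)) : ℝ) * #P
      ≤ (2 * K + 2) * ((2 * ρ + 2 * K * δ) / t + 2) * N := by
  obtain ⟨Z, hZc, hZ⟩ := hcov
  have ha0 : 0 < |a| := by
    by_contra hcon
    have : |a| = 0 := le_antisymm (not_lt.1 hcon) (abs_nonneg _)
    rw [this, mul_zero] at ha
    linarith
  have hinv : ∀ u v : ℝ, |a * u| ≤ v → |u| ≤ K * v := by
    intro u v huv
    rw [abs_mul] at huv
    calc |u| ≤ K * |a| * |u| := le_mul_of_one_le_left (abs_nonneg _) ha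
      _ = K * (|a| * |u|) := by ring
      _ ≤ K * v := by gcongr
  set I := X.filter (fun x => |x - x₀| ≤ ρ) with hI
  have hch : ∀ q ∈ I ×ˢ P, ∃ z ∈ Z, |a * q.1 - a * q.2 - z| ≤ δ := by
    intro q hq
    obtain ⟨h1, h2⟩ := mem_product.1 hq
    obtain ⟨z, hz, hd⟩ := hZ (a * q.1 - a * q.2) ⟨q.1, (mem_filter.1 h1).1, q.2, hP h2, rfl⟩
    exact ⟨z, hz, by rwa [Real.dist_eq] at hd⟩
  choose! φ hφ1 hφ2 using hch
  have hc : (#(I ×ˢ P) : ℝ) = #I * #P := by rw [card_product]; push_cast; rfl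
  rw [← hc]
  refine card_fib (I ×ˢ P) φ (by positivity) ?_ ?_
  · intro z _
    set s := (I ×ˢ P).filter (fun q => φ q = z) with hs
    have hs1 : ∀ q ∈ s, q.1 ∈ I ∧ q.2 ∈ P ∧ |a * q.1 - a * q.2 - z| ≤ δ := by
      intro q hq
      obtain ⟨h1, h2⟩ := mem_filter.1 hq
      obtain ⟨h3, h4⟩ := mem_product.1 h1
      exact ⟨h3, h4, h2 ▸ hφ2 q h1⟩
    have hpair : ∀ q ∈ s, ∀ q' ∈ s, |(q.1 - q'.1) - (q.2 - q'.2)| ≤ 2 * K * δ := by
      intro q hq q' hq'
      have h1 := (hs1 q hq).2.2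
      have h2 := (hs1 q' hq').2.2
      have h3 : |a * ((q.1 - q'.1) - (q.2 - q'.2))| ≤ 2 * δ := by
        have e : a * ((q.1 - q'.1) - (q.2 - q'.2))
            = (a * q.1 - a * q.2 - z) - (a * q'.1 - a * q'.2 - z) := by ring
        rw [e]
        calc _ ≤ |a * q.1 - a * q.2 - z| + |a * q'.1 - a * q'.2 - z| := abs_sub _ _
          _ ≤ δ + δ := add_le_add h1 h2
          _ = 2 * δ := by ring
      calc _ ≤ K * (2 * δ) := hinv _ _ h3
        _ = 2 * K * δ := by ring
    refine card_fib s Prod.snd (by positivity) ?_ ?_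
    · intro p _
      have h1 : #(s.filter (fun q => q.2 = p))
          = #((s.filter (fun q => q.2 = p)).image Prod.fst) := by
        rw [card_image_of_injOn]
        intro q hq q' hq' h
        have h2 := (mem_filter.1 (mem_coe.1 hq)).2
        have h3 := (mem_filter.1 (mem_coe.1 hq')).2
        exact Prod.ext h (h2.trans h3.symm)
      rw [h1]
      have h2 := card_sep (δ := δ) (l := 2 * K * δ)
        (P := (s.filter (fun q => q.2 = p)).image Prod.fst) hδ (by positivity) ?_ ?_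
      · have h3 : 2 * K * δ / δ = 2 * K := by field_simp
        rw [h3] at h2
        exact h2
      · refine sep_mono hX ?_
        intro x hx
        obtain ⟨q, hq, rfl⟩ := mem_image.1 hx
        exact (mem_filter.1 (hs1 q (mem_filter.1 hq).1).1).1
      · intro x hx y hy
        obtain ⟨q, hq, rfl⟩ := mem_image.1 hx
        obtain ⟨q', hq', rfl⟩ := mem_image.1 hy
        obtain ⟨h4, h5⟩ := mem_filter.1 hq
        obtain ⟨h6, h7⟩ := mem_filter.1 hq'
        have h8 := hpair q h4 q' h6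
        rw [h5, h7, sub_self, sub_zero] at h8
        exact h8
    · refine card_sep (δ := t) (l := 2 * ρ + 2 * K * δ) (P := s.image Prod.snd) ht
        (by positivity) ?_ ?_
      · refine sep_mono hPs ?_
        intro x hx
        obtain ⟨q, hq, rfl⟩ := mem_image.1 hx
        exact (hs1 q hq).2.1
      · intro x hx y hy
        obtain ⟨q, hq, rfl⟩ := mem_image.1 hx
        obtain ⟨q', hq', rfl⟩ := mem_image.1 hy
        have h4 := hpair q hq q' hq'
        have h5 := (mem_filter.1 (hs1 q hq).1).2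
        have h6 := (mem_filter.1 (hs1 q' hq').1).2
        have e : q.2 - q'.2 = (q.1 - x₀) - (q'.1 - x₀) - ((q.1 - q'.1) - (q.2 - q'.2)) := by
          ring
        rw [e]
        calc _ ≤ |(q.1 - x₀) - (q'.1 - x₀)| + |(q.1 - q'.1) - (q.2 - q'.2)| := abs_sub _ _
          _ ≤ (|q.1 - x₀| + |q'.1 - x₀|) + 2 * K * δ := add_le_add (abs_sub _ _) h4
          _ ≤ (ρ + ρ) + 2 * K * δ := by gcongr
          _ = 2 * ρ + 2 * K * δ := by ring
  · refine le_trans ?_ hZc
    have : (I ×ˢ P).image φ ⊆ Z := by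
      intro z hz
      obtain ⟨q, hq, rfl⟩ := mem_image.1 hz
      exact hφ1 q hq
    exact_mod_cast card_le_card this

open Classical in
/-- the pairs `(b, x) ∈ G`, `b ∈ I ⊆ B'`: lower bound for their number and the map to the cover -/
lemma pairs_low {n L₁ : ℝ} {X B' I : Finset ℝ} {G : Finset (ℝ × ℝ)} (hI : I ⊆ B')
    (hdeg : ∀ b ∈ B', n ≤ L₁ * #(X.filter (fun x => (b, x) ∈ G))) :
    (#I : ℝ) * n ≤ L₁ * #((I ×ˢ X).filter (fun q => q ∈ G)) := by
  set E := (I ×ˢ X).filter (fun q => q ∈ G) with hE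
  have e1 : #E = ∑ b ∈ I, #(E.filter (fun q => q.1 = b)) :=
    card_eq_sum_card_fiberwise (fun q hq =>
      mem_coe.2 (mem_product.1 (mem_filter.1 (mem_coe.1 hq)).1).1)
  have e2 : ∀ b ∈ I, #(E.filter (fun q => q.1 = b)) = #(X.filter (fun x => (b, x) ∈ G)) := by
    intro b hb
    rw [← card_image_of_injective (X.filter (fun x => (b, x) ∈ G)) (Prod.mk_right_injective b)]
    congr 1
    ext q
    simp only [mem_filter, mem_image, hE, mem_product]
    constructor
    · rintro ⟨⟨⟨h1, h2⟩, h3⟩, rfl⟩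
      exact ⟨q.2, ⟨h2, h3⟩, rfl⟩
    · rintro ⟨x, ⟨h1, h2⟩, rfl⟩
      exact ⟨⟨⟨hb, h1⟩, h2⟩, rfl⟩
  rw [e1]
  push_cast
  rw [mul_sum]
  calc (#I : ℝ) * n = ∑ b ∈ I, n := by rw [sum_const, nsmul_eq_mul]
    _ ≤ _ := by
      refine sum_le_sum fun b hb => ?_
      rw [e2 b hb]
      exact hdeg b (hI hb)

open Classical in
/-- Frostman for `B'`, radius `K t` -/
lemma frostB2 {K n δ a t U N L₁ : ℝ} {X B' P : Finset ℝ} {G : Finset (ℝ × ℝ)} (hK : 1 ≤ K)
    (hδ : 0 < δ) (hB : Sep δ B') (hL : 0 ≤ L₁) (hU0 : 0 ≤ U)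
    (hdeg : ∀ b ∈ B', n ≤ L₁ * #(X.filter (fun x => (b, x) ∈ G)))
    (hcov : Cov δ N {z : ℝ | ∃ p ∈ G, z = p.1 + a * p.2}) (ha : 1 ≤ K * |a|) (ht : δ ≤ t)
    (hX : ∀ x₀, (#(X.filter (fun x => |x - x₀| ≤ 2 * K ^ 2 * t)) : ℝ) * #P ≤ U) (b₀ : ℝ) :
    (#(B'.filter (fun b => |b - b₀| ≤ K * t)) : ℝ) * n * #P ≤ L₁ * (4 * U * N) := by
  obtain ⟨Z, hZc, hZ⟩ := hcov
  have ht0 : 0 < t := lt_of_lt_of_le hδ ht
  have ha0 : 0 < |a| := by
    by_contra hcon
    have : |a| = 0 := le_antisymm (not_lt.1 hcon) (abs_nonneg _)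
    rw [this, mul_zero] at ha
    linarith
  have hinv : ∀ u v : ℝ, |a * u| ≤ v → |u| ≤ K * v := by
    intro u v huv
    rw [abs_mul] at huv
    calc |u| ≤ K * |a| * |u| := le_mul_of_one_le_left (abs_nonneg _) ha
      _ = K * (|a| * |u|) := by ring
      _ ≤ K * v := by gcongr
  rcases P.eq_empty_or_nonempty with hP | hP
  · rw [hP]
    have hN0 : 0 ≤ N := le_trans (Nat.cast_nonneg _) hZc
    simp only [card_empty, Nat.cast_zero, mul_zero]
    positivity
  have hPpos : (0 : ℝ) < #P := by exact_mod_cast card_pos.2 hP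
  set I := B'.filter (fun b => |b - b₀| ≤ K * t) with hI
  have h1 : (#I : ℝ) * n ≤ L₁ * #((I ×ˢ X).filter (fun q => q ∈ G)) :=
    pairs_low (filter_subset _ _) hdeg
  set E := (I ×ˢ X).filter (fun q => q ∈ G) with hE
  have hch : ∀ q ∈ E, ∃ z ∈ Z, |q.1 + a * q.2 - z| ≤ δ := by
    intro q hq
    obtain ⟨z, hz, hd⟩ := hZ (q.1 + a * q.2) ⟨q, (mem_filter.1 hq).2, rfl⟩
    exact ⟨z, hz, by rwa [Real.dist_eq] at hd⟩
  choose! φ hφ1 hφ2 using hch
  have h2 : (#E : ℝ) ≤ (4 * (U / #P)) * N := by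
    refine card_fib E φ (by positivity) ?_ ?_
    · intro z _
      set s := E.filter (fun q => φ q = z) with hs
      have hs1 : ∀ q ∈ s, q.1 ∈ I ∧ q.2 ∈ X ∧ |q.1 + a * q.2 - z| ≤ δ := by
        intro q hq
        obtain ⟨h1, h2⟩ := mem_filter.1 hq
        obtain ⟨h3, h4⟩ := mem_product.1 (mem_filter.1 h1).1
        exact ⟨h3, h4, h2 ▸ hφ2 q h1⟩
      refine card_fib s Prod.snd (by norm_num) ?_ ?_
      · intro x _
        have h1 : #(s.filter (fun q => q.2 = x))
            = #((s.filter (fun q => q.2 = x)).image Prod.fst) := by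
          rw [card_image_of_injOn]
          intro q hq q' hq' h
          have h2 := (mem_filter.1 (mem_coe.1 hq)).2
          have h3 := (mem_filter.1 (mem_coe.1 hq')).2
          exact Prod.ext h (h2.trans h3.symm)
        rw [h1]
        have h2 := card_sep (δ := δ) (l := 2 * δ)
          (P := (s.filter (fun q => q.2 = x)).image Prod.fst) hδ (by positivity) ?_ ?_
        · have h3 : 2 * δ / δ = 2 := by field_simp
          rw [h3] at h2
          linarith
        · refine sep_mono hB ?_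
          intro b hb
          obtain ⟨q, hq, rfl⟩ := mem_image.1 hb
          exact (mem_filter.1 (hs1 q (mem_filter.1 hq).1).1).1
        · intro b hb b' hb'
          obtain ⟨q, hq, rfl⟩ := mem_image.1 hb
          obtain ⟨q', hq', rfl⟩ := mem_image.1 hb'
          obtain ⟨h4, h5⟩ := mem_filter.1 hq
          obtain ⟨h6, h7⟩ := mem_filter.1 hq'
          have h8 := (hs1 q h4).2.2
          have h9 := (hs1 q' h6).2.2
          rw [h5] at h8
          rw [h7] at h9
          have e : q.1 - q'.1 = (q.1 + a * x - z) - (q'.1 + a * x - z) := by ring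
          rw [e]
          calc _ ≤ |q.1 + a * x - z| + |q'.1 + a * x - z| := abs_sub _ _
            _ ≤ δ + δ := add_le_add h8 h9
            _ = 2 * δ := by ring
      · rw [le_div_iff₀ hPpos]
        refine le_trans ?_ (hX ((z - b₀) / a))
        gcongr
        intro x hx
        obtain ⟨q, hq, rfl⟩ := mem_image.1 hx
        obtain ⟨h3, h4, h5⟩ := hs1 q hq
        refine mem_filter.2 ⟨h4, ?_⟩
        have h6 := (mem_filter.1 h3).2
        have ha' : a ≠ 0 := abs_pos.1 ha0
        have h7 : |a * (q.2 - (z - b₀) / a)| ≤ 2 * (K * t) := by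
          have e : a * (q.2 - (z - b₀) / a) = (q.1 + a * q.2 - z) - (q.1 - b₀) := by
            field_simp
            ring
          rw [e]
          calc _ ≤ |q.1 + a * q.2 - z| + |q.1 - b₀| := abs_sub _ _
            _ ≤ δ + K * t := add_le_add h5 h6
            _ ≤ 2 * (K * t) := by nlinarith
        calc _ ≤ K * (2 * (K * t)) := hinv _ _ h7
          _ = 2 * K ^ 2 * t := by ring
    · refine le_trans ?_ hZc
      have : E.image φ ⊆ Z := by
        intro z hz
        obtain ⟨q, hq, rfl⟩ := mem_image.1 hz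
        exact hφ1 q hq
      exact_mod_cast card_le_card this
  calc (#I : ℝ) * n * #P ≤ (L₁ * #E) * #P := by gcongr
    _ ≤ (L₁ * ((4 * (U / #P)) * N)) * #P := by gcongr
    _ = L₁ * (4 * U * N) := by field_simp

open Classical in
/-- covering number of `B'` -/
lemma coverB {K n δ a r N L₁ : ℝ} {X B' P Q : Finset ℝ} {G : Finset (ℝ × ℝ)} (hK : 1 ≤ K)
    (hδ : 0 < δ) (hX : Sep δ X) (hL : 0 ≤ L₁)
    (hdeg : ∀ b ∈ B', n ≤ L₁ * #(X.filter (fun x => (b, x) ∈ G)))
    (hcov : Cov δ N {z : ℝ | ∃ p ∈ G, z = p.1 + a * p.2}) (ha : 1 ≤ K * |a|) (ha2 : |a| ≤ K)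
    (hr : δ ≤ r) (hQ : Q ⊆ B') (hQs : Sep r Q) (hP : ∀ x ∈ X, ∃ p ∈ P, |x - p| ≤ r) :
    (#Q : ℝ) * n ≤ L₁ * ((2 * K + 2) * (2 * K + 4) * (N * #P)) := by
  obtain ⟨Z, hZc, hZ⟩ := hcov
  have hr0 : 0 < r := lt_of_lt_of_le hδ hr
  have ha0 : 0 < |a| := by
    by_contra hcon
    have : |a| = 0 := le_antisymm (not_lt.1 hcon) (abs_nonneg _)
    rw [this, mul_zero] at ha
    linarith
  have hinv : ∀ u v : ℝ, |a * u| ≤ v → |u| ≤ K * v := by
    intro u v huv
    rw [abs_mul] at huv
    calc |u| ≤ K * |a| * |u| := le_mul_of_one_le_left (abs_nonneg _) ha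
      _ = K * (|a| * |u|) := by ring
      _ ≤ K * v := by gcongr
  have h1 : (#Q : ℝ) * n ≤ L₁ * #((Q ×ˢ X).filter (fun q => q ∈ G)) := pairs_low hQ hdeg
  set E := (Q ×ˢ X).filter (fun q => q ∈ G) with hE
  have hch : ∀ q ∈ E, ∃ z ∈ Z, |q.1 + a * q.2 - z| ≤ δ := by
    intro q hq
    obtain ⟨z, hz, hd⟩ := hZ (q.1 + a * q.2) ⟨q, (mem_filter.1 hq).2, rfl⟩
    exact ⟨z, hz, by rwa [Real.dist_eq] at hd⟩
  choose! φ hφ1 hφ2 using hch
  choose! ψ hψ1 hψ2 using hP
  have h2 : (#E : ℝ) ≤ ((2 * K + 2) * (2 * K + 4)) * (N * #P) := by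
    refine card_fib E (fun q => (φ q, ψ q.2)) (by positivity) ?_ ?_
    · rintro ⟨z, p⟩ _
      set s := E.filter (fun q => (φ q, ψ q.2) = (z, p)) with hs
      have hs1 : ∀ q ∈ s, q.1 ∈ Q ∧ q.2 ∈ X ∧ |q.1 + a * q.2 - z| ≤ δ ∧ |q.2 - p| ≤ r := by
        intro q hq
        obtain ⟨h1, h2⟩ := mem_filter.1 hq
        obtain ⟨h3, h4⟩ := mem_product.1 (mem_filter.1 h1).1
        obtain ⟨h5, h6⟩ := Prod.mk.inj h2
        exact ⟨h3, h4, h5 ▸ hφ2 q h1, h6 ▸ hψ2 q.2 h4⟩
      refine card_fib s Prod.fst (by positivity) ?_ ?_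
      · intro b _
        have h1 : #(s.filter (fun q => q.1 = b))
            = #((s.filter (fun q => q.1 = b)).image Prod.snd) := by
          rw [card_image_of_injOn]
          intro q hq q' hq' h
          have h2 := (mem_filter.1 (mem_coe.1 hq)).2
          have h3 := (mem_filter.1 (mem_coe.1 hq')).2
          exact Prod.ext (h2.trans h3.symm) h
        rw [h1]
        have h2 := card_sep (δ := δ) (l := 2 * K * δ)
          (P := (s.filter (fun q => q.1 = b)).image Prod.snd) hδ (by positivity) ?_ ?_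
        · have h3 : 2 * K * δ / δ = 2 * K := by field_simp
          rw [h3] at h2
          exact h2
        · refine sep_mono hX ?_
          intro b hb
          obtain ⟨q, hq, rfl⟩ := mem_image.1 hb
          exact (hs1 q (mem_filter.1 hq).1).2.1
        · intro x hx x' hx'
          obtain ⟨q, hq, rfl⟩ := mem_image.1 hx
          obtain ⟨q', hq', rfl⟩ := mem_image.1 hx'
          obtain ⟨h4, h5⟩ := mem_filter.1 hq
          obtain ⟨h6, h7⟩ := mem_filter.1 hq'
          have h8 := (hs1 q h4).2.2.1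
          have h9 := (hs1 q' h6).2.2.1
          rw [h5] at h8
          rw [h7] at h9
          have h10 : |a * (q.2 - q'.2)| ≤ 2 * δ := by
            have e : a * (q.2 - q'.2) = (b + a * q.2 - z) - (b + a * q'.2 - z) := by ring
            rw [e]
            calc _ ≤ |b + a * q.2 - z| + |b + a * q'.2 - z| := abs_sub _ _
              _ ≤ δ + δ := add_le_add h8 h9
              _ = 2 * δ := by ring
          calc _ ≤ K * (2 * δ) := hinv _ _ h10
            _ = 2 * K * δ := by ring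
      · have h2 := card_sep (δ := r) (l := (2 * K + 2) * r) (P := s.image Prod.fst) hr0
          (by positivity) ?_ ?_
        · have h3 : (2 * K + 2) * r / r = 2 * K + 2 := by field_simp
          rw [h3] at h2
          linarith
        · refine sep_mono hQs ?_
          intro x hx
          obtain ⟨q, hq, rfl⟩ := mem_image.1 hx
          exact (hs1 q hq).1
        · intro x hx y hy
          obtain ⟨q, hq, rfl⟩ := mem_image.1 hx
          obtain ⟨q', hq', rfl⟩ := mem_image.1 hy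
          obtain ⟨-, -, h5, h6⟩ := hs1 q hq
          obtain ⟨-, -, h7, h8⟩ := hs1 q' hq'
          have e : q.1 - q'.1 = ((q.1 + a * q.2 - z) - (q'.1 + a * q'.2 - z))
              - a * ((q.2 - p) - (q'.2 - p)) := by ring
          rw [e]
          have h9 : |a * ((q.2 - p) - (q'.2 - p))| ≤ K * (r + r) := by
            rw [abs_mul]
            gcongr
            exact (abs_sub _ _).trans (add_le_add h6 h8)
          calc _ ≤ |(q.1 + a * q.2 - z) - (q'.1 + a * q'.2 - z)|
                + |a * ((q.2 - p) - (q'.2 - p))| := abs_sub _ _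
            _ ≤ (δ + δ) + K * (r + r) :=
                add_le_add ((abs_sub _ _).trans (add_le_add h5 h7)) h9
            _ ≤ (r + r) + K * (r + r) := by gcongr
            _ = (2 * K + 2) * r := by ring
    · have h3 : E.image (fun q => (φ q, ψ q.2)) ⊆ Z ×ˢ P := by
        intro z hz
        obtain ⟨q, hq, rfl⟩ := mem_image.1 hz
        exact mem_product.2 ⟨hφ1 q hq, hψ1 q.2 (mem_product.1 (mem_filter.1 hq).1).2⟩
      have h4 := card_le_card h3
      rw [card_product] at h4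
      calc (#(E.image (fun q => (φ q, ψ q.2))) : ℝ) ≤ #Z * #P := by exact_mod_cast h4
        _ ≤ N * #P := by gcongr
  calc (#Q : ℝ) * n ≤ L₁ * #E := h1
    _ ≤ L₁ * (((2 * K + 2) * (2 * K + 4)) * (N * #P)) := by gcongr

end Vale.Agent.P065.H626
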