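import Vale.Agent.P065.H626.AC3

/-!
# P065, upper bound (helper626): grid data with strips of width `K δ` => `GridOut` and `heavy`
-/

set_option autoImplicit false

namespace Vale.Agent.P065.H626

open Finset
open Vale.Agent.P118.OF (Cov Sep)
open Vale.Agent.P065.H17 (card_sep sep_mono)

open Classical in
/-- the data of the grid, strips of width `K δ`, (STAR) for all classes -/
structure GI (K n m δ : ℝ) (A B H : Finset ℝ) (S : ℝ → Finset ℝ)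
    (C : ℝ → ℝ → Finset (ℝ × ℝ)) (P0 : Finset (ℝ × ℝ)) : Prop where
  hK : 3072 ≤ K
  δ0 : 0 < δ
  n0 : 0 < n
  m0 : 0 < m
  cA : n ≤ K * #A
  A1 : ∀ a ∈ A, 1 ≤ K * |a| ∧ |a| ≤ K
  sB : Sep δ B
  sH : Sep δ H
  cB : (#B : ℝ) ≤ K * n
  cH : (#H : ℝ) ≤ K * n
  cS : ∀ a ∈ A, (#(S a) : ℝ) ≤ K * n
  sub : ∀ a ∈ A, ∀ s ∈ S a, ∀ q ∈ C a s, q.1 ∈ B ∧ q.2 ∈ H
  disj : ∀ a ∈ A, ∀ s ∈ S a, ∀ s' ∈ S a, s ≠ s' → Disjoint (C a s) (C a s')
  near : ∀ a ∈ A, ∀ s ∈ S a, ∀ q ∈ C a s, |q.1 + a * q.2 - s| ≤ K * δ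
  full : ∀ a ∈ A, n ^ 2 ≤ K * ∑ s ∈ S a, (#(C a s) : ℝ)
  cP : (#P0 : ℝ) ≤ K * n ^ 2 * m
  star : ∀ al ∈ A, ∀ t r : ℝ, δ ≤ t → t ≤ r → r ≤ 1 → ∀ s₀ h₀ : ℝ,
    ∑ a ∈ A, ∑ s ∈ S a, (m * #((C a s).filter (Box al t r s₀ h₀))) ^ 3
    ≤ K * (n * m) * (#(P0.filter (Box al (K * t) (K * r) s₀ h₀)) : ℝ) ^ 2

open Classical in
/-- covering of the strips of width `K δ` by intervals of length `δ` -/
lemma cov_near {K δ N a : ℝ} (hK : 3072 ≤ K) (hδ : 0 < δ) {S : Finset ℝ} (hS : (#S : ℝ) ≤ N)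
    {C : ℝ → Finset (ℝ × ℝ)} (hn : ∀ s ∈ S, ∀ q ∈ C s, |q.1 + a * q.2 - s| ≤ K * δ) :
    Cov δ (K ^ 2 * N) {z : ℝ | ∃ p ∈ S.biUnion C, z = p.1 + a * p.2} := by
  obtain ⟨M, hM1, hM2⟩ : ∃ M : ℤ, K + 1 ≤ M ∧ (M : ℝ) ≤ K + 2 :=
    ⟨⌈K + 1⌉, Int.le_ceil _, by have := Int.ceil_lt_add_one (K + 1); linarith⟩
  refine ⟨(S ×ˢ Icc (-M) M).image (fun w : ℝ × ℤ => w.1 + w.2 * δ), ?_, ?_⟩
  · have h1 : (#((S ×ˢ Icc (-M) M).image (fun w : ℝ × ℤ => w.1 + w.2 * δ)) : ℝ)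
        ≤ #S * #(Icc (-M) M) := by
      have := card_image_le (s := S ×ˢ Icc (-M) M) (f := fun w : ℝ × ℤ => w.1 + w.2 * δ)
      rw [card_product] at this
      exact_mod_cast this
    have h2 : (#(Icc (-M) M) : ℝ) ≤ K ^ 2 := by
      rw [Int.card_Icc]
      have h3 : (((M + 1 - -M).toNat : ℤ) : ℝ) = ((M + 1 - -M : ℤ) : ℝ) := by
        rw [Int.toNat_of_nonneg]
        have : (0 : ℝ) ≤ M := by linarith
        have : 0 ≤ M := by exact_mod_cast this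
        omega
      have h4 : (((M + 1 - -M).toNat : ℕ) : ℝ) = ((M + 1 - -M : ℤ) : ℝ) := by
        rw [← h3]; norm_cast
      rw [h4]
      push_cast
      nlinarith
    calc _ ≤ (#S : ℝ) * #(Icc (-M) M) := h1
      _ ≤ N * K ^ 2 := by gcongr; exact le_trans (Nat.cast_nonneg _) hS
      _ = K ^ 2 * N := by ring
  · rintro z ⟨p, hp, rfl⟩
    obtain ⟨s, hs, hps⟩ := mem_biUnion.1 hp
    have h1 := abs_le.1 (hn s hs p hps)
    set w := (p.1 + a * p.2 - s) / δ with hw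
    have h2 : p.1 + a * p.2 - s = w * δ := by rw [hw]; field_simp
    have h3 : -K ≤ w := by
      rw [hw, le_div_iff₀ hδ]; linarith [h1.1]
    have h4 : w ≤ K := by
      rw [hw, div_le_iff₀ hδ]; linarith [h1.2]
    have h5 : (⌊w⌋ : ℝ) ≤ w := Int.floor_le _
    have h6 : w < ⌊w⌋ + 1 := Int.lt_floor_add_one _
    refine ⟨s + ⌊w⌋ * δ, mem_image.2 ⟨(s, ⌊w⌋), mem_product.2 ⟨hs, ?_⟩, rfl⟩, ?_⟩
    · rw [mem_Icc]
      constructor
      · have : ((-M : ℤ) : ℝ) ≤ ⌊w⌋ := by push_cast; linarith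
        exact_mod_cast this
      · have : (⌊w⌋ : ℝ) ≤ M := by linarith
        exact_mod_cast this
    · rw [Real.dist_eq]
      have e : p.1 + a * p.2 - (s + ⌊w⌋ * δ) = (w - ⌊w⌋) * δ := by
        calc _ = (p.1 + a * p.2 - s) - ⌊w⌋ * δ := by ring
          _ = w * δ - ⌊w⌋ * δ := by rw [h2]
          _ = _ := by ring
      rw [e, abs_mul, abs_of_nonneg (by linarith : 0 ≤ w - ⌊w⌋), abs_of_pos hδ]
      nlinarith

open Classical in
/-- the segment lemma inside `B' ×ˢ X`, boxes `K t × r` -/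
lemma seg_step2 {K n m δ : ℝ} {A B H : Finset ℝ} {S : ℝ → Finset ℝ}
    {C : ℝ → ℝ → Finset (ℝ × ℝ)} {P0 : Finset (ℝ × ℝ)} (hg : GI K n m δ A B H S C P0)
    {c : ℕ} {A' X B' Q₀ : Finset ℝ} (hA' : A' ⊆ A)
    (hdense : ∀ a ∈ A', n ^ 2 ≤ K ^ c *
      #(((S a).biUnion (fun s => C a s)).filter (fun p => p.1 ∈ B' ∧ p.2 ∈ X)))
    {t r M u : ℝ} (ht : δ ≤ t) (htr : K * t ≤ r) (hr1 : r ≤ 1) (hM0 : 0 ≤ M)
    (hQ₀n : ∀ x ∈ X, ∃ q ∈ Q₀, |x - q| ≤ r)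
    (hBM : ∀ b₀, (#(B'.filter (fun b => |b - b₀| ≤ K * t)) : ℝ) ≤ M)
    (hXu : ∀ h₀, (#(X.filter (fun x => |x - h₀| ≤ r)) : ℝ) ≤ u) {al : ℝ} (hal : al ∈ A') :
    (#(A'.filter (fun a => |a - al| ≤ t / r)) : ℝ) * n ≤
      400 * (2 * K + 1) ^ 4 * (K ^ (c + 1)) ^ 9 * (3 * #Q₀) ^ 2 * (M * u) := by
  have hK := hg.hK
  have hδ := hg.δ0
  have hn := hg.n0
  have hm := hg.m0
  have hK1 : 1 ≤ K := by linarith
  have hK0 : 0 < K := by linarith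
  have ht0 : 0 < t := lt_of_lt_of_le hδ ht
  have hKt : t ≤ K * t := le_mul_of_one_le_left ht0.le hK1
  have hr0 : 0 < r := lt_of_lt_of_le (by positivity) htr
  have hpow : ∀ {i j : ℕ}, i ≤ j → K ^ i ≤ K ^ j := fun h => pow_le_pow_right₀ hK1 h
  have hKs1 : 1 ≤ K ^ (c + 1) := one_le_pow₀ hK1
  have hKKs : K ≤ K ^ (c + 1) := by
    calc K = K ^ 1 := (pow_one K).symm
      _ ≤ K ^ (c + 1) := hpow (by omega)
  have hcKs : K ^ c ≤ K ^ (c + 1) := hpow (by omega)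
  generalize K ^ (c + 1) = Ks at hKs1 hKKs hcKs ⊢
  generalize K ^ c = Kc at hdense hcKs
  refine seg (m := m) (d := K * δ) (t := K * t) (r := r) (al := al) (Y := B' ×ˢ X) (P0 := P0)
    (S := S) (C := fun a s => (C a s).filter (fun p => p.1 ∈ B' ∧ p.2 ∈ X))
    ⟨hKs1, hn, hm, by positivity, hr0, by gcongr, hK1, ?_, ?_, ?_, ?_, ?_, ?_, ?_, ?_, ?_, ?_⟩
  · intro a ha
    refine (mem_filter.1 ha).2.trans ?_
    gcongr
  · intro a ha
    exact (hg.cS a (hA' (mem_filter.1 ha).1)).trans (by gcongr)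
  · intro a _ s _ p hp
    exact mem_product.2 (mem_filter.1 hp).2
  · intro a ha s hs s' hs' hne
    exact (hg.disj a (hA' (mem_filter.1 ha).1) s hs s' hs' hne).mono (filter_subset _ _)
      (filter_subset _ _)
  · intro a ha s hs q hq
    exact hg.near a (hA' (mem_filter.1 ha).1) s hs q (mem_filter.1 hq).1
  · intro a ha
    have h1 := hdense a (mem_filter.1 ha).1
    have h2 : ((S a).biUnion (fun s => C a s)).filter (fun p => p.1 ∈ B' ∧ p.2 ∈ X) ⊆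
        (S a).biUnion (fun s => (C a s).filter (fun p => p.1 ∈ B' ∧ p.2 ∈ X)) := by
      intro p hp
      obtain ⟨h3, h4⟩ := mem_filter.1 hp
      obtain ⟨s, hs, hps⟩ := mem_biUnion.1 h3
      exact mem_biUnion.2 ⟨s, hs, mem_filter.2 ⟨hps, h4⟩⟩
    have h3 : (#(((S a).biUnion (fun s => C a s)).filter (fun p => p.1 ∈ B' ∧ p.2 ∈ X)) : ℝ)
        ≤ ∑ s ∈ S a, (#((C a s).filter (fun p => p.1 ∈ B' ∧ p.2 ∈ X)) : ℝ) := by
      exact_mod_cast (card_le_card h2).trans card_biUnion_le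
    have h4 : (0 : ℝ) ≤ #(((S a).biUnion (fun s => C a s)).filter
        (fun p => p.1 ∈ B' ∧ p.2 ∈ X)) := Nat.cast_nonneg _
    exact h1.trans (mul_le_mul hcKs h3 h4 (by linarith))
  · exact layers hr0 (fun q hq => (mem_product.1 hq).2) hQ₀n
  · intro s₀ h₀
    exact (box_count hM0 hBM s₀ h₀).trans (mul_le_mul_of_nonneg_left (hXu h₀) hM0)
  · refine hg.cP.trans ?_
    have : 0 ≤ n ^ 2 * m := by positivity
    calc K * n ^ 2 * m = K * (n ^ 2 * m) := by ring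
      _ ≤ Ks * (n ^ 2 * m) := mul_le_mul_of_nonneg_right hKKs this
      _ = _ := by ring
  · intro s₀ h₀
    have h1 := hg.star al (hA' hal) (K * t) r (ht.trans hKt) htr hr1 s₀ h₀
    have h2 : ∑ a ∈ A'.filter (fun a => |a - al| ≤ t / r), ∑ s ∈ S a,
        (m * (#(((C a s).filter (fun p => p.1 ∈ B' ∧ p.2 ∈ X)).filter
          (Box al (K * t) r s₀ h₀)) : ℝ)) ^ 3
        ≤ ∑ a ∈ A, ∑ s ∈ S a, (m * (#((C a s).filter (Box al (K * t) r s₀ h₀)) : ℝ)) ^ 3 := by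
      refine le_trans (sum_le_sum (g := fun a => ∑ s ∈ S a,
        (m * (#((C a s).filter (Box al (K * t) r s₀ h₀)) : ℝ)) ^ 3) ?_)
        (sum_le_sum_of_subset_of_nonneg ((filter_subset _ _).trans hA') ?_)
      · intro a _
        refine sum_le_sum fun s _ => ?_
        have h3 : (#(((C a s).filter (fun p => p.1 ∈ B' ∧ p.2 ∈ X)).filter
            (Box al (K * t) r s₀ h₀)) : ℝ) ≤ #((C a s).filter (Box al (K * t) r s₀ h₀)) := by
          exact_mod_cast card_le_card (filter_subset_filter _ (filter_subset _ _))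
        exact pow_le_pow_left₀ (by positivity) (mul_le_mul_of_nonneg_left h3 hm.le) 3
      · intro a _ _
        exact sum_nonneg fun s _ => by positivity
    refine h2.trans (h1.trans ?_)
    have h3 : 0 ≤ (n * m) * (#(P0.filter (Box al (K * (K * t)) (K * r) s₀ h₀)) : ℝ) ^ 2 := by
      positivity
    calc K * (n * m) * (#(P0.filter (Box al (K * (K * t)) (K * r) s₀ h₀)) : ℝ) ^ 2
        = K * ((n * m) * (#(P0.filter (Box al (K * (K * t)) (K * r) s₀ h₀)) : ℝ) ^ 2) := by ring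
      _ ≤ Ks * ((n * m) * (#(P0.filter (Box al (K * (K * t)) (K * r) s₀ h₀)) : ℝ) ^ 2) :=
        mul_le_mul_of_nonneg_right hKKs h3
      _ = _ := by ring

/-- arithmetic of the segment step -/
lemma ar4 {K Ks n x p q M u : ℝ} {c : ℕ} (hK : 3072 ≤ K) (hKs : Ks = K ^ (c + 1)) (hn : 0 < n)
    (hp : 0 < p) (hq : 0 < q) (hM : M = K ^ (2 * c + 9) * n / p)
    (hu : u = K ^ (c + 4) * n / q)
    (h : x * n ≤ 400 * (2 * K + 1) ^ 4 * Ks ^ 9 * (3 * q) ^ 2 * (M * u)) :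
    x * p ≤ K ^ (12 * c + 28) * q * n := by
  have hK0 : 0 < K := by linarith
  have h2 : (291600 : ℝ) ≤ K ^ 2 := by nlinarith
  have h3 : n * p * q * (x * n) ≤ n * p * q *
      (400 * (2 * K + 1) ^ 4 * Ks ^ 9 * (3 * q) ^ 2 * (M * u)) := by gcongr
  have h4 : n * p * q * (400 * (2 * K + 1) ^ 4 * Ks ^ 9 * (3 * q) ^ 2 * (M * u))
      = 3600 * (2 * K + 1) ^ 4 * Ks ^ 9 * q ^ 2 * (K ^ (2 * c + 9) * K ^ (c + 4)) * n ^ 3 := by
    rw [hM, hu]; field_simp; ring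
  have h5 : 3600 * (2 * K + 1) ^ 4 * Ks ^ 9 * q ^ 2 * (K ^ (2 * c + 9) * K ^ (c + 4)) * n ^ 3
      ≤ K ^ 6 * Ks ^ 9 * q ^ 2 * (K ^ (2 * c + 9) * K ^ (c + 4)) * n ^ 3 := by
    have hKs0 : 0 < Ks := by rw [hKs]; positivity
    have : 3600 * (2 * K + 1) ^ 4 ≤ K ^ 6 := by
      calc 3600 * (2 * K + 1) ^ 4 ≤ 3600 * (3 * K) ^ 4 := by gcongr; linarith
        _ = 291600 * K ^ 4 := by ring
        _ ≤ K ^ 2 * K ^ 4 := by gcongr
        _ = K ^ 6 := by ring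
    gcongr
  have h6 : K ^ 6 * Ks ^ 9 * q ^ 2 * (K ^ (2 * c + 9) * K ^ (c + 4)) * n ^ 3
      = (n ^ 2 * q) * (K ^ (12 * c + 28) * q * n) := by
    rw [hKs]; ring
  have h7 : (n ^ 2 * q) * (x * p) ≤ (n ^ 2 * q) * (K ^ (12 * c + 28) * q * n) := by
    calc (n ^ 2 * q) * (x * p) = n * p * q * (x * n) := by ring
      _ ≤ _ := h3
      _ = _ := h4
      _ ≤ _ := h5
      _ = _ := h6
  exact le_of_mul_le_mul_left h7 (by positivity)

open Classical in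
/-- the result of BSG and the Frostman conditions -/
structure Mid4 (c : ℕ) (K n δ : ℝ) (A A' X B' : Finset ℝ) (a₀ : ℝ) (G : ℝ → Finset (ℝ × ℝ)) :
    Prop where
  sA : A' ⊆ A
  ma : a₀ ∈ A
  ne : A'.Nonempty
  cA : (#A : ℝ) ≤ K ^ c * #A'
  cX : n ≤ K ^ c * #X
  cov : ∀ a ∈ A', ∀ b ∈ A', Cov δ (K ^ c * n) {z : ℝ | ∃ x ∈ X, ∃ y ∈ X, z = a * x - b * y}
  deg : ∀ b ∈ B', n ≤ K ^ c * #(X.filter (fun x => (b, x) ∈ G a₀))
  dense : ∀ a ∈ A', n ^ 2 ≤ K ^ c * #((G a).filter (fun p => p.1 ∈ B' ∧ p.2 ∈ X))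

open Classical in
lemma mid4 : ∃ c : ℕ, ∀ (K n m δ : ℝ) (A B H : Finset ℝ) (S : ℝ → Finset ℝ)
    (C : ℝ → ℝ → Finset (ℝ × ℝ)) (P0 : Finset (ℝ × ℝ)), GI K n m δ A B H S C P0 →
    ∃ (A' X B' : Finset ℝ) (a₀ : ℝ), X ⊆ H ∧ B' ⊆ B ∧
      Mid4 c K n δ A A' X B' a₀ (fun a => (S a).biUnion (fun s => C a s)) := by
  obtain ⟨c, hc⟩ := ac1'
  refine ⟨3 * c, ?_⟩
  intro K n m δ A B H S C P0 hg
  have hK := hg.hK
  have hK1 : 1 ≤ K := by linarith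
  have hK0 : 0 < K := by linarith
  have hn := hg.n0
  have hKK : K ≤ K ^ 3 := by
    calc K = K ^ 1 := (pow_one K).symm
      _ ≤ K ^ 3 := pow_le_pow_right₀ hK1 (by norm_num)
  have hAne : A.Nonempty := by
    rw [← card_pos]
    by_contra hcon
    have h1 : #A = 0 := by omega
    have h2 := hg.cA
    rw [h1] at h2
    simp at h2
    linarith
  obtain ⟨a₀, ha₀, A', hA', X, hX, B', hB', h1, h2, h3, h4, h5⟩ :=
    hc (K ^ 3) n δ A B H (fun a => (S a).biUnion (fun s => C a s)) (hK.trans hKK) hg.δ0 hn hAne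
      (fun a ha => ⟨(hg.A1 a ha).1.trans (by gcongr), (hg.A1 a ha).2.trans hKK⟩) hg.sB hg.sH
      (hg.cB.trans (by gcongr)) (hg.cH.trans (by gcongr)) (by
        intro a ha
        refine ⟨?_, ?_, ?_⟩
        · intro p hp
          obtain ⟨s, hs, hps⟩ := mem_biUnion.1 hp
          exact hg.sub a ha s hs p hps
        · refine (hg.full a ha).trans ?_
          have : #((S a).biUnion (fun s => C a s)) = ∑ s ∈ S a, #(C a s) :=
            card_biUnion (fun s hs s' hs' hne => hg.disj a ha s hs s' hs' hne)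
          rw [this]
          push_cast
          gcongr
        · have := cov_near (N := K * n) hK hg.δ0 (hg.cS a ha) (C := C a) (a := a)
            (hg.near a ha)
          obtain ⟨Z, hZ1, hZ2⟩ := this
          exact ⟨Z, hZ1.trans (le_of_eq (by ring)), hZ2⟩)
  have e : (K ^ 3) ^ c = K ^ (3 * c) := by rw [← pow_mul]
  rw [e] at h1 h2 h3 h4 h5
  have hA'ne : A'.Nonempty := by
    rw [← card_pos]
    by_contra hcon
    have h6 : #A' = 0 := by omega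
    rw [h6] at h1
    simp at h1
    exact hAne.ne_empty h1
  exact ⟨A', X, B', a₀, hX, hB', ⟨hA', ha₀, hA'ne, h1, h2, h3, h4, h5⟩⟩

end Vale.Agent.P065.H626
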