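import Vale.Agent.P065.H626.AC4

/-!
# P065, upper bound (helper626): `GI` => `GridOut` and a heavy box
-/

set_option autoImplicit false

namespace Vale.Agent.P065.H626

open Finset
open Vale.Agent.P118.OF (Cov Sep)
open Vale.Agent.P065.H17 (card_sep sep_mono)

open Classical in
/-- (SUBA) -/
lemma suba5 {K n m δ : ℝ} {A B H : Finset ℝ} {S : ℝ → Finset ℝ}
    {C : ℝ → ℝ → Finset (ℝ × ℝ)} {P0 : Finset (ℝ × ℝ)} (hg : GI K n m δ A B H S C P0)
    {c : ℕ} {A' X B' : Finset ℝ} {a₀ : ℝ} (hXH : X ⊆ H) (hBB : B' ⊆ B)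
    (hm4 : Mid4 c K n δ A A' X B' a₀ (fun a => (S a).biUnion (fun s => C a s)))
    {t r : ℝ} (ht : δ ≤ t) (htr : t ≤ r) (hr1 : r ≤ 1) {P Q R : Finset ℝ} (hP : P ⊆ X)
    (hPs : Sep t P) (hQn : ∀ x ∈ X, ∃ q ∈ Q, |x - q| ≤ r) (hR : R ⊆ A')
    (hRn : ∀ a ∈ A', ∃ b ∈ R, |a - b| ≤ t / r) :
    (#P : ℝ) ≤ K ^ (13 * c + 30) * #R * #Q := by
  have hK := hg.hK
  have hδ := hg.δ0
  have hn := hg.n0
  have hK1 : 1 ≤ K := by linarith
  have hK0 : 0 < K := by linarith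
  have hpow : ∀ {i j : ℕ}, i ≤ j → K ^ i ≤ K ^ j := fun h => pow_le_pow_right₀ hK1 h
  have hXpos : (0 : ℝ) < #X := by
    by_contra hcon
    have : (#X : ℝ) = 0 := le_antisymm (not_lt.1 hcon) (Nat.cast_nonneg _)
    have h2 := hm4.cX
    rw [this, mul_zero] at h2
    linarith
  have hnA' : n ≤ K ^ (c + 1) * #A' := by
    calc n ≤ K * #A := hg.cA
      _ ≤ K * (K ^ c * #A') := by gcongr; exact hm4.cA
      _ = _ := by ring
  have hA'pos : (0 : ℝ) < #A' := by exact_mod_cast card_pos.2 hm4.ne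
  obtain ⟨a₁, ha₁⟩ := hm4.ne
  have hRpos : (1 : ℝ) ≤ #R := by
    obtain ⟨b, hb, -⟩ := hRn a₁ ha₁
    exact_mod_cast card_pos.2 ⟨b, hb⟩
  have ht0 : 0 < t := lt_of_lt_of_le hδ ht
  have hr0 : 0 < r := lt_of_lt_of_le ht0 htr
  have hXs : Sep δ X := sep_mono hg.sH hXH
  rcases P.eq_empty_or_nonempty with hPe | hPne
  · rw [hPe]
    simp only [card_empty, Nat.cast_zero]
    positivity
  have hPpos : (0 : ℝ) < #P := by exact_mod_cast card_pos.2 hPne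
  -- the case `K t > r`
  rcases lt_or_ge r (K * t) with hKt | hKt
  · choose! φ hφ1 hφ2 using hQn
    have h1 : (#P : ℝ) ≤ (2 * K + 2) * #Q := by
      refine card_fib P φ (by positivity) ?_ ?_
      · intro q _
        have h2 := card_sep (δ := t) (l := 2 * K * t) (P := P.filter (fun x => φ x = q)) ht0
          (by positivity) (sep_mono hPs (filter_subset _ _)) ?_
        · have h3 : 2 * K * t / t = 2 * K := by field_simp
          rw [h3] at h2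
          exact h2
        · intro x hx y hy
          obtain ⟨h4, h5⟩ := mem_filter.1 hx
          obtain ⟨h6, h7⟩ := mem_filter.1 hy
          have h8 := hφ2 x (hP h4)
          have h9 := hφ2 y (hP h6)
          rw [h5] at h8
          rw [h7] at h9
          have e : x - y = (x - q) - (y - q) := by ring
          rw [e]
          calc _ ≤ |x - q| + |y - q| := abs_sub _ _
            _ ≤ r + r := add_le_add h8 h9
            _ ≤ K * t + K * t := by gcongr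
            _ = 2 * K * t := by ring
      · gcongr
        intro q hq
        obtain ⟨x, hx, rfl⟩ := mem_image.1 hq
        exact hφ1 x (hP hx)
    calc (#P : ℝ) ≤ (2 * K + 2) * #Q := h1
      _ ≤ K ^ 2 * #Q := by gcongr; nlinarith
      _ ≤ K ^ (13 * c + 30) * #Q :=
        mul_le_mul_of_nonneg_right (pow_le_pow_right₀ hK1 (by omega)) (Nat.cast_nonneg _)
      _ = K ^ (13 * c + 30) * 1 * #Q := by ring
      _ ≤ K ^ (13 * c + 30) * #R * #Q := by gcongr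
  obtain ⟨Q₀, hQ₀, hQ₀s, hQ₀n⟩ := exists_net X hr0.le
  have hQ₀pos : (0 : ℝ) < #Q₀ := by
    have hXne : X.Nonempty := by rw [← card_pos]; exact_mod_cast hXpos
    obtain ⟨x, hx⟩ := hXne
    obtain ⟨q, hq, -⟩ := hQ₀n x hx
    exact_mod_cast card_pos.2 ⟨q, hq⟩
  have hcovX := hm4.cov a₁ ha₁ a₁ ha₁
  have hfX : ∀ {t ρ : ℝ}, δ ≤ t → 0 ≤ ρ → ρ ≤ 2 * K ^ 2 * t → ∀ {P : Finset ℝ}, P ⊆ X →
      Sep t P → ∀ x₀, (#(X.filter (fun x => |x - x₀| ≤ ρ)) : ℝ) * #P ≤ K ^ (c + 4) * n := by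
    intro t ρ ht hρ0 hρ P hP hPs x₀
    have ht0 : 0 < t := lt_of_lt_of_le hδ ht
    refine (frostX2 hK1 hδ hXs hcovX (hg.A1 a₁ (hm4.sA ha₁)).1 ht0 hρ0 hP hPs x₀).trans ?_
    have h1 : (2 * ρ + 2 * K * δ) / t + 2 ≤ 5 * K ^ 2 := by
      have h2 : (2 * ρ + 2 * K * δ) / t ≤ 4 * K ^ 2 + 2 * K := by
        rw [div_le_iff₀ ht0]
        have : 2 * K * δ ≤ 2 * K * t := by gcongr
        nlinarith
      nlinarith
    calc (2 * K + 2) * ((2 * ρ + 2 * K * δ) / t + 2) * (K ^ c * n)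
        ≤ (3 * K) * (5 * K ^ 2) * (K ^ c * n) := by
          have h3 : 0 ≤ (2 * ρ + 2 * K * δ) / t + 2 := by positivity
          gcongr
          linarith
      _ = 15 * (K ^ (c + 3) * n) := by ring
      _ ≤ K * (K ^ (c + 3) * n) := by gcongr; linarith
      _ = _ := by ring
  set M : ℝ := K ^ (2 * c + 9) * n / #P with hM
  set u : ℝ := K ^ (c + 4) * n / #Q₀ with hu
  have hM0 : 0 ≤ M := by positivity
  have hBM : ∀ b₀, (#(B'.filter (fun b => |b - b₀| ≤ K * t)) : ℝ) ≤ M := by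
    intro b₀
    have h1 := frostB2 (n := n) (L₁ := K ^ c) (N := K ^ 2 * (K * n)) (U := K ^ (c + 4) * n)
      (G := (S a₀).biUnion (fun s => C a₀ s)) (a := a₀) hK1 hδ (sep_mono hg.sB hBB)
      (by positivity) (by positivity) hm4.deg
      (cov_near (N := K * n) hK hδ (hg.cS a₀ hm4.ma) (hg.near a₀ hm4.ma))
      (hg.A1 a₀ hm4.ma).1 ht (hfX ht (by positivity) le_rfl hP hPs) b₀
    rw [hM, le_div_iff₀ hPpos]
    have h2 : n * ((#(B'.filter (fun b => |b - b₀| ≤ K * t)) : ℝ) * #P)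
        ≤ n * (K ^ (2 * c + 9) * n) := by
      calc n * ((#(B'.filter (fun b => |b - b₀| ≤ K * t)) : ℝ) * #P)
          = (#(B'.filter (fun b => |b - b₀| ≤ K * t)) : ℝ) * n * #P := by ring
        _ ≤ K ^ c * (4 * (K ^ (c + 4) * n) * (K ^ 2 * (K * n))) := h1
        _ = 4 * (K ^ (2 * c + 7) * n * n) := by ring
        _ ≤ K ^ 2 * (K ^ (2 * c + 7) * n * n) := by gcongr; nlinarith
        _ = n * (K ^ (2 * c + 9) * n) := by ring
    exact le_of_mul_le_mul_left h2 hn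
  have hXu : ∀ h₀, (#(X.filter (fun x => |x - h₀| ≤ r)) : ℝ) ≤ u := by
    intro h₀
    rw [hu, le_div_iff₀ hQ₀pos]
    refine hfX (ht.trans htr) hr0.le ?_ hQ₀ hQ₀s h₀
    have h1 : 1 ≤ 2 * K ^ 2 := by nlinarith
    exact le_mul_of_one_le_left hr0.le h1
  have hseg : ∀ al ∈ A', (#(A'.filter (fun a => |a - al| ≤ t / r)) : ℝ) * #P
      ≤ K ^ (12 * c + 28) * #Q₀ * n := fun al hal =>
    ar4 hK rfl hn hPpos hQ₀pos hM hu
      (seg_step2 hg hm4.sA hm4.dense ht hKt hr1 hM0 hQ₀n hBM hXu hal)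
  have hsum : (#A' : ℝ) * #P ≤ #R * (K ^ (12 * c + 28) * #Q₀ * n) := by
    have h1 : A' ⊆ R.biUnion (fun al => A'.filter (fun a => |a - al| ≤ t / r)) := by
      intro a ha
      obtain ⟨b, hb, hd⟩ := hRn a ha
      exact mem_biUnion.2 ⟨b, hb, mem_filter.2 ⟨ha, hd⟩⟩
    have h2 : (#A' : ℝ) ≤ ∑ al ∈ R, (#(A'.filter (fun a => |a - al| ≤ t / r)) : ℝ) := by
      exact_mod_cast (card_le_card h1).trans card_biUnion_le
    calc (#A' : ℝ) * #P ≤ (∑ al ∈ R, (#(A'.filter (fun a => |a - al| ≤ t / r)) : ℝ)) * #P := by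
          gcongr
      _ = ∑ al ∈ R, (#(A'.filter (fun a => |a - al| ≤ t / r)) : ℝ) * #P := by rw [sum_mul]
      _ ≤ ∑ al ∈ R, (K ^ (12 * c + 28) * #Q₀ * n) := sum_le_sum fun al hal => hseg al (hR hal)
      _ = _ := by rw [sum_const, nsmul_eq_mul]
  have hQ4 : (#Q₀ : ℝ) ≤ 4 * #Q := sep_le_net hr0 hQ₀ hQ₀s hQn
  have h1 : (#A' : ℝ) * #P ≤ #A' * (K ^ (13 * c + 30) * #R * #Q) := by
    calc (#A' : ℝ) * #P ≤ #R * (K ^ (12 * c + 28) * #Q₀ * n) := hsum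
      _ ≤ #R * (K ^ (12 * c + 28) * (4 * #Q) * (K ^ (c + 1) * #A')) := by gcongr
      _ = 4 * (K ^ (13 * c + 29) * (#R * #Q * #A')) := by ring
      _ ≤ K * (K ^ (13 * c + 29) * (#R * #Q * #A')) := by gcongr; linarith
      _ = _ := by ring
  exact le_of_mul_le_mul_left h1 hA'pos

open Classical in
/-- a heavy box -/
lemma heavy5 {K n m δ : ℝ} {A B H : Finset ℝ} {S : ℝ → Finset ℝ}
    {C : ℝ → ℝ → Finset (ℝ × ℝ)} {P0 : Finset (ℝ × ℝ)} (hg : GI K n m δ A B H S C P0)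
    {c : ℕ} {A' X B' : Finset ℝ} {a₀ : ℝ} (hXH : X ⊆ H)
    (hm4 : Mid4 c K n δ A A' X B' a₀ (fun a => (S a).biUnion (fun s => C a s)))
    {r : ℝ} (hr : δ ≤ r) {P : Finset ℝ} (hP : ∀ x ∈ X, ∃ p ∈ P, |x - p| ≤ r) :
    ∃ a ∈ A, ∃ b₁ x₁ : ℝ, n ^ 2 ≤ K ^ (2 * c + 6) * (#P : ℝ) ^ 2 *
      #(((S a).biUnion (fun s => C a s)).filter
        (fun q => |q.1 - b₁| ≤ r ∧ |q.2 - x₁| ≤ r)) := by
  have hK := hg.hK
  have hδ := hg.δ0
  have hn := hg.n0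
  have hK1 : 1 ≤ K := by linarith
  have hK0 : 0 < K := by linarith
  have hr0 : 0 < r := lt_of_lt_of_le hδ hr
  obtain ⟨a, ha⟩ := hm4.ne
  obtain ⟨Q, hQ, hQs, hQn⟩ := exists_net B' hr0.le
  have hQc : (#Q : ℝ) ≤ K ^ (c + 6) * #P := by
    have h1 := coverB (n := n) (L₁ := K ^ c) (N := K ^ 2 * (K * n)) (a := a₀)
      (G := (S a₀).biUnion (fun s => C a₀ s)) hK1 hδ (sep_mono hg.sH hXH) (by positivity)
      hm4.deg (cov_near (N := K * n) hK hδ (hg.cS a₀ hm4.ma) (hg.near a₀ hm4.ma))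
      (hg.A1 a₀ hm4.ma).1 (hg.A1 a₀ hm4.ma).2 hr hQ hQs hP
    have h2 : n * #Q ≤ n * (K ^ (c + 6) * #P) := by
      calc n * #Q = #Q * n := by ring
        _ ≤ K ^ c * ((2 * K + 2) * (2 * K + 4) * (K ^ 2 * (K * n) * #P)) := h1
        _ ≤ K ^ c * ((3 * K) * (3 * K) * (K ^ 2 * (K * n) * #P)) := by
          gcongr <;> linarith
        _ = 9 * (K ^ (c + 5) * n * #P) := by ring
        _ ≤ K * (K ^ (c + 5) * n * #P) := by gcongr; linarith
        _ = _ := by ring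
    exact le_of_mul_le_mul_left h2 hn
  set E := ((S a).biUnion (fun s => C a s)).filter (fun p => p.1 ∈ B' ∧ p.2 ∈ X) with hE
  have hEc : n ^ 2 ≤ K ^ c * #E := hm4.dense a ha
  choose! φ hφ1 hφ2 using hQn
  choose! ψ hψ1 hψ2 using hP
  refine ⟨a, hm4.sA ha, ?_⟩
  by_contra hcon
  push Not at hcon
  have hEpos : (0 : ℝ) < #E := by
    by_contra h
    have h1 : (#E : ℝ) = 0 := le_antisymm (not_lt.1 h) (Nat.cast_nonneg _)
    rw [h1, mul_zero] at hEc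
    have : 0 < n ^ 2 := by positivity
    linarith
  -- the fibres are small
  have hPpos : (0 : ℝ) < #P := by
    have hEne : E.Nonempty := by rw [← card_pos]; exact_mod_cast hEpos
    obtain ⟨q, hq⟩ := hEne
    exact_mod_cast card_pos.2 ⟨_, hψ1 q.2 (mem_filter.1 hq).2.2⟩
  set T : ℝ := n ^ 2 / (K ^ (2 * c + 6) * (#P : ℝ) ^ 2) with hT
  have hT0 : 0 < T := by positivity
  have hsmall : ∀ b₁ x₁ : ℝ, (#(((S a).biUnion (fun s => C a s)).filter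
      (fun q => |q.1 - b₁| ≤ r ∧ |q.2 - x₁| ≤ r)) : ℝ) < T := by
    intro b₁ x₁
    rw [hT, lt_div_iff₀ (by positivity)]
    have := hcon b₁ x₁
    linarith
  have hlt : ∑ w ∈ Q ×ˢ P, (#(E.filter (fun q => (φ q.1, ψ q.2) = w)) : ℝ) < #Q * #P * T := by
    have hne : (Q ×ˢ P).Nonempty := by
      have hEne : E.Nonempty := by rw [← card_pos]; exact_mod_cast hEpos
      obtain ⟨q, hq⟩ := hEne
      exact ⟨(φ q.1, ψ q.2), mem_product.2 ⟨hφ1 q.1 (mem_filter.1 hq).2.1,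
        hψ1 q.2 (mem_filter.1 hq).2.2⟩⟩
    calc ∑ w ∈ Q ×ˢ P, (#(E.filter (fun q => (φ q.1, ψ q.2) = w)) : ℝ)
        < ∑ w ∈ Q ×ˢ P, T := by
          refine sum_lt_sum_of_nonempty hne ?_
          rintro ⟨b₁, x₁⟩ _
          refine lt_of_le_of_lt ?_ (hsmall b₁ x₁)
          gcongr
          intro q hq
          obtain ⟨h1, h2⟩ := mem_filter.1 hq
          obtain ⟨h3, h4⟩ := mem_filter.1 h1
          obtain ⟨h5, h6⟩ := Prod.mk.inj h2
          exact mem_filter.2 ⟨h3, h5 ▸ hφ2 q.1 h4.1, h6 ▸ hψ2 q.2 h4.2⟩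
      _ = #Q * #P * T := by
        rw [sum_const, nsmul_eq_mul, card_product]
        push_cast
        ring
  have hEsum : (#E : ℝ) = ∑ w ∈ Q ×ˢ P, (#(E.filter (fun q => (φ q.1, ψ q.2) = w)) : ℝ) := by
    have : #E = ∑ w ∈ Q ×ˢ P, #(E.filter (fun q => (φ q.1, ψ q.2) = w)) :=
      card_eq_sum_card_fiberwise (fun q hq => mem_coe.2 (mem_product.2
        ⟨hφ1 q.1 (mem_filter.1 (mem_coe.1 hq)).2.1, hψ1 q.2 (mem_filter.1 (mem_coe.1 hq)).2.2⟩))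
    exact_mod_cast this
  have hfin : n ^ 2 < n ^ 2 := by
    calc n ^ 2 ≤ K ^ c * #E := hEc
      _ < K ^ c * (#Q * #P * T) := by
        have : (#E : ℝ) < #Q * #P * T := hEsum ▸ hlt
        gcongr
      _ ≤ K ^ c * ((K ^ (c + 6) * #P) * #P * T) := by gcongr
      _ = n ^ 2 := by
        rw [hT]
        field_simp
        ring
  exact lt_irrefl _ hfin

open Classical in
/-- **AC5** -/
theorem ac5 : ∃ c : ℕ, ∀ (K n m δ : ℝ) (A B H : Finset ℝ) (S : ℝ → Finset ℝ)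
    (C : ℝ → ℝ → Finset (ℝ × ℝ)) (P0 : Finset (ℝ × ℝ)), GI K n m δ A B H S C P0 →
    ∃ A' X : Finset ℝ, A'.Nonempty ∧ GridOut (K ^ c) n δ A A' X H ∧
      ∀ r : ℝ, δ ≤ r → ∀ P : Finset ℝ, (∀ x ∈ X, ∃ p ∈ P, |x - p| ≤ r) →
        ∃ a ∈ A, ∃ b₁ x₁ : ℝ, n ^ 2 ≤ K ^ c * (#P : ℝ) ^ 2 *
          #(((S a).biUnion (fun s => C a s)).filter
            (fun q => |q.1 - b₁| ≤ r ∧ |q.2 - x₁| ≤ r)) := by
  obtain ⟨c, hc⟩ := mid4
  refine ⟨13 * c + 30, ?_⟩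
  intro K n m δ A B H S C P0 hg
  have hK := hg.hK
  have hK1 : 1 ≤ K := by linarith
  have hn := hg.n0
  obtain ⟨A', X, B', a₀, hX, hB', hm4⟩ := hc K n m δ A B H S C P0 hg
  have hpow : ∀ {i j : ℕ}, i ≤ j → K ^ i ≤ K ^ j := fun h => pow_le_pow_right₀ hK1 h
  refine ⟨A', X, hm4.ne, ⟨hm4.sA, hX, ?_, ?_, ?_, ?_⟩, ?_⟩
  · exact hm4.cA.trans (mul_le_mul_of_nonneg_right (hpow (by omega)) (Nat.cast_nonneg _))
  · exact hm4.cX.trans (mul_le_mul_of_nonneg_right (hpow (by omega)) (Nat.cast_nonneg _))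
  · intro a ha b hb
    obtain ⟨Z, h1, h2⟩ := hm4.cov a ha b hb
    exact ⟨Z, h1.trans (mul_le_mul_of_nonneg_right (hpow (by omega)) hn.le), h2⟩
  · intro t r ht htr hr1 P Q R hP hPs _ hQn hR hRn
    exact suba5 hg hX hB' hm4 ht htr hr1 hP hPs hQn hR hRn
  · intro r hr P hP
    obtain ⟨a, ha, b₁, x₁, h⟩ := heavy5 hg hX hm4 hr hP
    refine ⟨a, ha, b₁, x₁, h.trans ?_⟩
    have : K ^ (2 * c + 6) ≤ K ^ (13 * c + 30) := hpow (by omega)
    gcongr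

end Vale.Agent.P065.H626
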