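import Vale.Agent.P065.H626.KillT

/-!
# P065, upper bound (helper626): the kill with a general exponent `q` in the dimension condition

`GridQ q` is helper352's `Grid` with `dim` weakened to: `(d / r) ^ q lam ^ (q + 1) ≤ K ^ c0`, or the
box of side `r` is light.  `Grid = GridQ 2`.
-/

set_option autoImplicit false

namespace Vale.Agent.P065.H626

open Finset
open Vale.Agent.P118.OF (Cov Sep)
open Vale.Agent.P065.H196 (MaxSep EndData StEnd)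

open Classical in
/-- **GRID** with exponent `q` -/
structure GridQ (q c0 : ℕ) (K lam d m : ℝ) (Y P0 : Finset (ℝ × ℝ)) (A : Finset ℝ)
    (S : ℝ → Finset ℝ) (C : ℝ → ℝ → Finset (ℝ × ℝ)) : Prop where
  hK : 2 ≤ K
  hlam : 1 ≤ lam
  hd : 0 < d
  hd1 : d ≤ 1
  hm : 0 < m
  dim : ∀ x y r : ℝ, d ≤ r → r ≤ 1 → lam ^ (q + 1) * d ^ q ≤ K ^ c0 * r ^ q ∨
    K ^ c0 * (#{p ∈ Y | |p.1 - x| ≤ r ∧ |p.2 - y| ≤ r} : ℝ) ≤ lam ^ 2
  box : ∀ p ∈ Y, |p.1| ≤ 1 ∧ |p.2| ≤ 1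
  sep1 : Sep d (Y.image Prod.fst)
  sep2 : Sep d (Y.image Prod.snd)
  card1 : (#(Y.image Prod.fst) : ℝ) ≤ K * lam
  card2 : (#(Y.image Prod.snd) : ℝ) ≤ K * lam
  absA : ∀ a ∈ A, 1 ≤ K * |a| ∧ |a| ≤ K
  cardA : lam ≤ K * #A
  cardS : ∀ a ∈ A, (#(S a) : ℝ) ≤ K * lam
  sub : ∀ a ∈ A, ∀ s ∈ S a, C a s ⊆ Y
  near : ∀ a ∈ A, ∀ s ∈ S a, ∀ p ∈ C a s, |p.1 + a * p.2 - s| ≤ K * d
  full : ∀ a ∈ A, lam ^ 2 ≤ K * #((S a).biUnion (C a))
  cardP : (#P0 : ℝ) ≤ K * lam ^ 2 * m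
  star : ∀ al ∈ A, ∀ s0 h0 t r : ℝ, d ≤ t → t ≤ r → r ≤ 1 →
    ∑ a ∈ A, ∑ s ∈ S a,
        (m * #{p ∈ C a s | |p.1 + al * p.2 - s0| ≤ t ∧ |p.2 - h0| ≤ r}) ^ 3
      ≤ K * lam * m *
        (#{p ∈ P0 | |p.1 + al * p.2 - s0| ≤ K * t ∧ |p.2 - h0| ≤ K * r} : ℝ) ^ 2

/-- **the algebraic end**, `c0` is absolute, `c1` depends on `q` -/
def StGridKillQ : Prop :=
  ∃ c0 : ℕ, ∀ q : ℕ, 1 ≤ q → ∃ c1 : ℕ, ∀ (K lam d m : ℝ) (Y P0 : Finset (ℝ × ℝ)) (A : Finset ℝ)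
    (S : ℝ → Finset ℝ) (C : ℝ → ℝ → Finset (ℝ × ℝ)),
    GridQ q c0 K lam d m Y P0 A S C → K ^ c1 ≤ lam → False

open Classical in
/-- from `GridQ` to `GI` -/
lemma gi_of_gridQ {q c0 : ℕ} {K lam d m : ℝ} {Y P0 : Finset (ℝ × ℝ)} {A : Finset ℝ}
    {S : ℝ → Finset ℝ} {C : ℝ → ℝ → Finset (ℝ × ℝ)} (h : GridQ q c0 K lam d m Y P0 A S C) :
    GI (K ^ 12) lam m d A (Y.image Prod.fst) (Y.image Prod.snd) S (C1 S C) P0 := by
  have hK2 := h.hK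
  have hK0 : 0 < K := by linarith
  have hK1 : 1 ≤ K := by linarith
  have hlam := h.hlam
  have hKK : K ≤ K ^ 12 := by
    calc K = K ^ 1 := (pow_one K).symm
      _ ≤ K ^ 12 := pow_le_pow_right₀ hK1 (by norm_num)
  refine ⟨?_, h.hd, by linarith, h.hm, ?_, ?_, h.sep1, h.sep2, ?_, ?_, ?_, ?_, ?_, ?_, ?_, ?_, ?_⟩
  · calc (3072 : ℝ) ≤ 2 ^ 12 := by norm_num
      _ ≤ K ^ 12 := by gcongr
  · exact h.cardA.trans (by gcongr)
  · intro a ha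
    exact ⟨(h.absA a ha).1.trans (by gcongr), (h.absA a ha).2.trans hKK⟩
  · exact h.card1.trans (by gcongr)
  · exact h.card2.trans (by gcongr)
  · intro a ha
    exact (h.cardS a ha).trans (by gcongr)
  · intro a ha s hs q hq
    have := h.sub a ha s hs (C1_sub S C a s hq)
    exact ⟨mem_image_of_mem _ this, mem_image_of_mem _ this⟩
  · intro a _ s _ s' _ hne
    exact C1_disj S C a s s' hne
  · intro a ha s hs q hq
    have hd := h.hd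
    exact (h.near a ha s hs q (C1_sub S C a s hq)).trans (by gcongr)
  · intro a ha
    refine (h.full a ha).trans ?_
    have h1 : (#((S a).biUnion (C a)) : ℝ) ≤ ∑ s ∈ S a, (#(C1 S C a s) : ℝ) := by
      exact_mod_cast (card_le_card (C1_union S C a)).trans card_biUnion_le
    calc K * (#((S a).biUnion (C a)) : ℝ) ≤ K ^ 12 * #((S a).biUnion (C a)) := by gcongr
      _ ≤ K ^ 12 * ∑ s ∈ S a, (#(C1 S C a s) : ℝ) := by gcongr
  · refine h.cardP.trans ?_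
    have hm := h.hm
    gcongr
  · intro al hal t r ht htr hr1 s₀ h₀
    have hm := h.hm
    have hd := h.hd
    have ht0 : 0 < t := lt_of_lt_of_le hd ht
    have hr0 : 0 < r := lt_of_lt_of_le ht0 htr
    have h1 := h.star al hal s₀ h₀ t r ht htr hr1
    have h2 : ∑ a ∈ A, ∑ s ∈ S a, (m * (#((C1 S C a s).filter (Box al t r s₀ h₀)) : ℝ)) ^ 3
        ≤ ∑ a ∈ A, ∑ s ∈ S a,
          (m * (#{p ∈ C a s | |p.1 + al * p.2 - s₀| ≤ t ∧ |p.2 - h₀| ≤ r} : ℝ)) ^ 3 := by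
      refine sum_le_sum fun a _ => sum_le_sum fun s _ => ?_
      have h3 : #((C1 S C a s).filter (Box al t r s₀ h₀))
          ≤ #{p ∈ C a s | |p.1 + al * p.2 - s₀| ≤ t ∧ |p.2 - h₀| ≤ r} := by
        refine card_le_card ?_
        intro p hp
        obtain ⟨h4, h5⟩ := mem_filter.1 hp
        exact mem_filter.2 ⟨C1_sub S C a s h4, h5⟩
      gcongr
    have h3 : #{p ∈ P0 | |p.1 + al * p.2 - s₀| ≤ K * t ∧ |p.2 - h₀| ≤ K * r}
        ≤ #(P0.filter (Box al (K ^ 12 * t) (K ^ 12 * r) s₀ h₀)) := by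
      refine card_le_card ?_
      intro p hp
      obtain ⟨h4, h5, h6⟩ := mem_filter.1 hp
      exact mem_filter.2 ⟨h4, h5.trans (by gcongr), h6.trans (by gcongr)⟩
    calc _ ≤ _ := h2
      _ ≤ _ := h1
      _ = K * (lam * m) *
          (#{p ∈ P0 | |p.1 + al * p.2 - s₀| ≤ K * t ∧ |p.2 - h₀| ≤ K * r} : ℝ) ^ 2 := by ring
      _ ≤ K ^ 12 * (lam * m) *
          (#(P0.filter (Box al (K ^ 12 * t) (K ^ 12 * r) s₀ h₀)) : ℝ) ^ 2 := by gcongr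

/-- arithmetic of the dimension condition -/
lemma dim_arithQ {q : ℕ} (hq : 1 ≤ q) {lam d r k : ℝ} (hlam : 1 ≤ lam) (hd : 0 < d) (hr : 0 < r)
    (hk : k ^ (q + 1) ≤ lam) (h : lam ^ (q + 1) * d ^ q ≤ k * r ^ q) :
    d ^ (q + 1) * lam ^ (q + 2) ≤ r ^ (q + 1) := by
  have h1 : (lam ^ (q + 1) * d ^ q) ^ (q + 1) ≤ (k * r ^ q) ^ (q + 1) :=
    pow_le_pow_left₀ (by positivity) h _
  have e1 : lam * (d ^ (q + 1) * lam ^ (q + 2)) ^ q = (lam ^ (q + 1) * d ^ q) ^ (q + 1) := by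
    rw [mul_pow, mul_pow, ← pow_mul, ← pow_mul, ← pow_mul, ← pow_mul]
    have e2 : (q + 1) * (q + 1) = (q + 2) * q + 1 := by ring
    have e3 : q * (q + 1) = (q + 1) * q := by ring
    rw [e2, e3, pow_succ]
    ring
  have e4 : (k * r ^ q) ^ (q + 1) = k ^ (q + 1) * (r ^ (q + 1)) ^ q := by
    rw [mul_pow, ← pow_mul, ← pow_mul]
    have e3 : q * (q + 1) = (q + 1) * q := by ring
    rw [e3]
  have h2 : lam * (d ^ (q + 1) * lam ^ (q + 2)) ^ q ≤ lam * (r ^ (q + 1)) ^ q := by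
    rw [e1]
    refine h1.trans ?_
    rw [e4]
    gcongr
  have h3 : (d ^ (q + 1) * lam ^ (q + 2)) ^ q ≤ (r ^ (q + 1)) ^ q :=
    le_of_mul_le_mul_left h2 (by linarith)
  exact le_of_pow_le_pow_left₀ (by omega) (by positivity) h3

/-- **the kill** with exponent `q` -/
theorem gridKillQ : StGridKillQ := by
  classical
  obtain ⟨c₀, hE⟩ := Vale.Agent.P065.UB.H196.stEnd
  obtain ⟨c, hc⟩ := ac5
  obtain ⟨g0, hg0⟩ : ∃ g0, g0 = 12 * c + 12 * (c + 1) * (2 * c₀) + 1 := ⟨_, rfl⟩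
  refine ⟨g0, ?_⟩
  intro q hq
  obtain ⟨mE, hE⟩ := hE (q + 1)
  refine ⟨(q + 1) * g0 + 12 * (c + 1) * mE, ?_⟩
  intro K lam d m Y P0 A S C hg hlamK
  have hK2 := hg.hK
  have hK0 : 0 < K := by linarith
  have hK1 : 1 ≤ K := by linarith
  have hlam := hg.hlam
  have hlam0 : 0 < lam := by linarith
  have hpow : ∀ {i j : ℕ}, i ≤ j → K ^ i ≤ K ^ j := fun h => pow_le_pow_right₀ hK1 h
  have hgi := gi_of_gridQ hg
  obtain ⟨A', X, hne, hout, hheavy⟩ := hc _ _ _ _ _ _ _ _ _ _ hgi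
  have hKc : (K ^ 12) ^ c ≤ (K ^ 12) ^ (c + 1) :=
    pow_le_pow_right₀ (one_le_pow₀ hK1) (Nat.le_succ c)
  have hKE : K ^ 12 ≤ (K ^ 12) ^ (c + 1) := by
    calc K ^ 12 = (K ^ 12) ^ 1 := (pow_one _).symm
      _ ≤ (K ^ 12) ^ (c + 1) := pow_le_pow_right₀ (one_le_pow₀ hK1) (by omega)
  have hKE1 : 1 ≤ (K ^ 12) ^ (c + 1) := one_le_pow₀ (one_le_pow₀ hK1)
  refine hE ((K ^ 12) ^ (c + 1)) d lam X A' ⟨?_, hg.hd, hg.hd1, ?_, ?_, ?_, hne, ?_, ?_, ?_, ?_⟩ ?_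
  · exact le_trans hK2 (le_trans (by
      calc K = K ^ 1 := (pow_one K).symm
        _ ≤ K ^ 12 := hpow (by norm_num)) hKE)
  · intro x hx y hy hxy
    exact hg.sep2 x (hout.subX hx) y (hout.subX hy) hxy
  · intro x hx
    obtain ⟨p, hp, rfl⟩ := mem_image.1 (hout.subX hx)
    exact (hg.box p hp).2.trans hKE1
  · exact hout.cX.trans (mul_le_mul_of_nonneg_right hKc (Nat.cast_nonneg _))
  · intro a ha
    have h1 := hgi.A1 a (hout.subA ha)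
    exact ⟨h1.1.trans (mul_le_mul_of_nonneg_right hKE (abs_nonneg _)), h1.2.trans hKE⟩
  · intro a ha b hb
    obtain ⟨Z, h1, h2⟩ := hout.cov a ha b hb
    exact ⟨Z, h1.trans (mul_le_mul_of_nonneg_right hKc hlam0.le), h2⟩
  · intro t r ht htr hr1 P Q R hP hQ hR
    have h1 := hout.suba t r ht htr hr1 P Q R hP.1 (fun x hx y hy hxy => by
        rw [Real.dist_eq]; exact hP.2.1 x hx y hy hxy) hQ.1
      (fun x hx => by obtain ⟨w, hw, h⟩ := hQ.2.2 x hx; exact ⟨w, hw, h.le⟩) hR.1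
      (fun a ha => by obtain ⟨w, hw, h⟩ := hR.2.2 a ha; exact ⟨w, hw, h.le⟩)
    calc (#P : ℝ) ≤ (K ^ 12) ^ c * #R * #Q := h1
      _ = (K ^ 12) ^ c * (#R * #Q) := by ring
      _ ≤ (K ^ 12) ^ (c + 1) * (#R * #Q) := by gcongr
  · intro r hdr hr1 P hP hPc
    have hr0 : 0 < r := lt_of_lt_of_le hg.hd hdr
    obtain ⟨a, ha, b₁, x₁, hh⟩ := hheavy r hdr P
      (fun x hx => by obtain ⟨w, hw, h⟩ := hP.2.2 x hx; exact ⟨w, hw, h.le⟩)
    have hsub : (#(((S a).biUnion (fun s => C1 S C a s)).filter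
        (fun q => |q.1 - b₁| ≤ r ∧ |q.2 - x₁| ≤ r)) : ℝ)
        ≤ #{p ∈ Y | |p.1 - b₁| ≤ r ∧ |p.2 - x₁| ≤ r} := by
      have : ((S a).biUnion (fun s => C1 S C a s)).filter
          (fun q => |q.1 - b₁| ≤ r ∧ |q.2 - x₁| ≤ r)
          ⊆ {p ∈ Y | |p.1 - b₁| ≤ r ∧ |p.2 - x₁| ≤ r} := by
        intro p hp
        obtain ⟨h1, h2⟩ := mem_filter.1 hp
        obtain ⟨s, hs, hps⟩ := mem_biUnion.1 h1
        exact mem_filter.2 ⟨hg.sub a ha s hs (C1_sub S C a s hps), h2⟩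
      exact_mod_cast card_le_card this
    have hbig : lam ^ 2 ≤ K ^ (12 * c + 12 * (c + 1) * (2 * c₀)) *
        (#{p ∈ Y | |p.1 - b₁| ≤ r ∧ |p.2 - x₁| ≤ r} : ℝ) := by
      calc lam ^ 2 ≤ (K ^ 12) ^ c * (#P : ℝ) ^ 2 * #(((S a).biUnion
            (fun s => C1 S C a s)).filter (fun q => |q.1 - b₁| ≤ r ∧ |q.2 - x₁| ≤ r)) := hh
        _ ≤ (K ^ 12) ^ c * (((K ^ 12) ^ (c + 1)) ^ c₀) ^ 2 *
            (#{p ∈ Y | |p.1 - b₁| ≤ r ∧ |p.2 - x₁| ≤ r} : ℝ) := by gcongr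
        _ = _ := by
          congr 1
          rw [← pow_mul, ← pow_mul, ← pow_mul, ← pow_mul, ← pow_add]
          congr 1
          ring
    rcases hg.dim b₁ x₁ r hdr hr1 with h1 | h1
    · have h2 : d ^ (q + 1) * lam ^ (q + 2) ≤ r ^ (q + 1) := by
        refine dim_arithQ hq hlam hg.hd hr0 ?_ h1
        calc (K ^ g0) ^ (q + 1) = K ^ ((q + 1) * g0) := by rw [← pow_mul, mul_comm]
          _ ≤ K ^ ((q + 1) * g0 + 12 * (c + 1) * mE) := hpow (Nat.le_add_right _ _)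
          _ ≤ lam := hlamK
      calc d ^ (q + 1) * lam ^ (q + 1 + 1) ≤ r ^ (q + 1) := h2
        _ = 1 * r ^ (q + 1) := by ring
        _ ≤ (K ^ 12) ^ (c + 1) * r ^ (q + 1) := by gcongr
    · exfalso
      have hpos : (0 : ℝ) < #{p ∈ Y | |p.1 - b₁| ≤ r ∧ |p.2 - x₁| ≤ r} := by
        by_contra hcon
        have h2 : (#{p ∈ Y | |p.1 - b₁| ≤ r ∧ |p.2 - x₁| ≤ r} : ℝ) = 0 :=
          le_antisymm (not_lt.1 hcon) (Nat.cast_nonneg _)
        rw [h2, mul_zero] at hbig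
        have : 0 < lam ^ 2 := by positivity
        linarith
      have h2 : K ^ g0 ≤ K ^ (12 * c + 12 * (c + 1) * (2 * c₀)) :=
        le_of_mul_le_mul_right (h1.trans hbig) hpos
      have h3 : K ^ (12 * c + 12 * (c + 1) * (2 * c₀)) < K ^ g0 :=
        pow_lt_pow_right₀ (by linarith) (by omega)
      linarith
  · calc ((K ^ 12) ^ (c + 1)) ^ mE = K ^ (12 * (c + 1) * mE) := by
          rw [← pow_mul, ← pow_mul, mul_assoc]
      _ ≤ K ^ ((q + 1) * g0 + 12 * (c + 1) * mE) := hpow (Nat.le_add_left _ _)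
      _ ≤ lam := hlamK

end Vale.Agent.P065.H626
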