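import Vale.Agent.P065.H626.Kill
import Vale.Agent.P065.UB.H196.EndX

/-!
# P065, upper bound (helper626): the algebraic end is a theorem
-/

set_option autoImplicit false

namespace Vale.Agent.P065.H626

/-- **the kill**: no grid of order `lam` with small losses exists -/
theorem gridKill : Vale.Agent.P065.UB.H352.StGridKill := gridKill_of Vale.Agent.P065.UB.H196.stEnd

end Vale.Agent.P065.H626
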