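import Mathlib

/-!
# P065, upper bound: the segment lemma `[SEG]` (helper626)

One direction `al`, one pair of scales `t ≤ r`.  `A` is a set of slopes in an interval of length
`t / r` around `al`; the strips `C a s` (`s ∈ S a`) of the class `a` lie in strips
`|x + a y - s| ≤ d`.  `P0` is the set of all points (mass `m` per cell), `star` is the inequality
(STAR) for the boxes `J = {|x + al y - s₀| ≤ t, |y - h₀| ≤ r}` with the dilated box on the right.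
Conclusion: `#A * lam ≤ C K ^ 9 R ^ 2 mu`.
-/

set_option autoImplicit false

namespace Vale.Agent.P065.H626

open Finset

/-- the box of direction `al` -/
def Box (al t r s₀ h₀ : ℝ) (q : ℝ × ℝ) : Prop :=
  |q.1 + al * q.2 - s₀| ≤ t ∧ |q.2 - h₀| ≤ r

open Classical in
/-- data of the segment lemma -/
structure Seg (K lam m d t r al D R mu : ℝ) (Y P0 : Finset (ℝ × ℝ)) (A : Finset ℝ)
    (S : ℝ → Finset ℝ) (C : ℝ → ℝ → Finset (ℝ × ℝ)) : Prop where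
  hK : 1 ≤ K
  lam0 : 0 < lam
  m0 : 0 < m
  t0 : 0 < t
  r0 : 0 < r
  dt : d ≤ t
  D1 : 1 ≤ D
  slope : ∀ a ∈ A, |a - al| ≤ t / r
  cS : ∀ a ∈ A, (#(S a) : ℝ) ≤ K * lam
  sub : ∀ a ∈ A, ∀ s ∈ S a, C a s ⊆ Y
  disj : ∀ a ∈ A, ∀ s ∈ S a, ∀ s' ∈ S a, s ≠ s' → Disjoint (C a s) (C a s')
  near : ∀ a ∈ A, ∀ s ∈ S a, ∀ q ∈ C a s, |q.1 + a * q.2 - s| ≤ d
  full : ∀ a ∈ A, lam ^ 2 ≤ K * ∑ s ∈ S a, (#(C a s) : ℝ)
  cells : (#(Y.image (fun q : ℝ × ℝ => ⌊q.2 / r⌋)) : ℝ) ≤ R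
  box : ∀ s₀ h₀ : ℝ, (#(Y.filter (Box al t r s₀ h₀)) : ℝ) ≤ mu
  cP : (#P0 : ℝ) ≤ K * lam ^ 2 * m
  star : ∀ s₀ h₀ : ℝ, ∑ a ∈ A, ∑ s ∈ S a, (m * #((C a s).filter (Box al t r s₀ h₀))) ^ 3
    ≤ K * (lam * m) * (#(P0.filter (Box al (D * t) (D * r) s₀ h₀)) : ℝ) ^ 2

/-- the grid index of a point -/
noncomputable def gr (al t r : ℝ) (q : ℝ × ℝ) : ℤ × ℤ := (⌊(q.1 + al * q.2) / t⌋, ⌊q.2 / r⌋)

/-- centre of the box `b` -/
noncomputable def cs (t : ℝ) (b : ℤ × ℤ) : ℝ := ((b.1 : ℝ) + 1 / 2) * t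

noncomputable def ch (r : ℝ) (b : ℤ × ℤ) : ℝ := ((b.2 : ℝ) + 1 / 2) * r

theorem floor_near {x t : ℝ} (ht : 0 < t) {i : ℤ} (h : ⌊x / t⌋ = i) :
    |x - ((i : ℝ) + 1 / 2) * t| ≤ t := by
  have h1 : (i : ℝ) ≤ x / t := by rw [← h]; exact Int.floor_le _
  have h2 : x / t < (i : ℝ) + 1 := by rw [← h]; exact Int.lt_floor_add_one _
  have h3 : x = x / t * t := by field_simp
  have h4 : (i : ℝ) * t ≤ x := by rw [h3]; exact mul_le_mul_of_nonneg_right h1 ht.le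
  have h5 : x ≤ ((i : ℝ) + 1) * t := by
    rw [h3]; exact mul_le_mul_of_nonneg_right h2.le ht.le
  rw [abs_le]
  constructor <;> nlinarith

theorem gr_box {al t r : ℝ} (ht : 0 < t) (hr : 0 < r) {q : ℝ × ℝ} {b : ℤ × ℤ}
    (h : gr al t r q = b) : Box al t r (cs t b) (ch r b) q := by
  have h1 : ⌊(q.1 + al * q.2) / t⌋ = b.1 := congrArg Prod.fst h
  have h2 : ⌊q.2 / r⌋ = b.2 := congrArg Prod.snd h
  exact ⟨floor_near ht h1, floor_near hr h2⟩

/-- a real number is within `D t` of at most `2 D + 1` of the points `(i + 1/2) t` -/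
theorem card_near {t D x : ℝ} (ht : 0 < t) (hD : 1 ≤ D) (I : Finset ℤ)
    (h : ∀ i ∈ I, |x - ((i : ℝ) + 1 / 2) * t| ≤ D * t) : (#I : ℝ) ≤ 2 * D + 1 := by
  have h1 : I ⊆ Icc ⌈x / t - 1 / 2 - D⌉ ⌊x / t - 1 / 2 + D⌋ := by
    intro i hi
    have h2 := abs_le.1 (h i hi)
    have h3 : x = x / t * t := by field_simp
    rw [mem_Icc]
    constructor
    · rw [Int.ceil_le]
      have : (x / t - 1 / 2 - D - i) * t ≤ 0 := by nlinarith [h2.1, h2.2]
      nlinarith [nonpos_of_mul_nonpos_left this ht]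
    · rw [Int.le_floor]
      have : (i - (x / t - 1 / 2 + D)) * t ≤ 0 := by nlinarith [h2.1, h2.2]
      nlinarith [nonpos_of_mul_nonpos_left this ht]
  have h2 := card_le_card h1
  rw [Int.card_Icc] at h2
  have h3 : ((⌊x / t - 1 / 2 + D⌋ + 1 - ⌈x / t - 1 / 2 - D⌉ : ℤ) : ℝ) ≤ 2 * D + 1 := by
    push_cast
    have := Int.floor_le (x / t - 1 / 2 + D)
    have := Int.le_ceil (x / t - 1 / 2 - D)
    linarith
  have h4 : ((#I : ℤ) : ℝ) ≤ 2 * D + 1 := by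
    rcases le_or_gt 0 (⌊x / t - 1 / 2 + D⌋ + 1 - ⌈x / t - 1 / 2 - D⌉) with h | h
    · have : (#I : ℤ) ≤ ⌊x / t - 1 / 2 + D⌋ + 1 - ⌈x / t - 1 / 2 - D⌉ := by
        have := Int.toNat_of_nonneg h
        omega
      exact le_trans (by exact_mod_cast this) h3
    · have : #I = 0 := by
        have : (⌊x / t - 1 / 2 + D⌋ + 1 - ⌈x / t - 1 / 2 - D⌉).toNat = 0 := by omega
        omega
      rw [this]; push_cast; linarith
  exact_mod_cast h4

open Classical in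
/-- the dilated boxes overlap at most `(2 D + 1) ^ 2` times -/
theorem overlap {al t r D : ℝ} (ht : 0 < t) (hr : 0 < r) (hD : 1 ≤ D) (B : Finset (ℤ × ℤ))
    (P0 : Finset (ℝ × ℝ)) :
    ∑ b ∈ B, (#(P0.filter (Box al (D * t) (D * r) (cs t b) (ch r b))) : ℝ)
      ≤ (2 * D + 1) ^ 2 * #P0 := by
  have h1 : ∑ b ∈ B, (#(P0.filter (Box al (D * t) (D * r) (cs t b) (ch r b))) : ℝ)
      = ∑ q ∈ P0, (#(B.filter (fun b => Box al (D * t) (D * r) (cs t b) (ch r b) q)) : ℝ) := by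
    simp_rw [card_filter]
    push_cast
    exact sum_comm
  rw [h1]
  have h2 : ∀ q ∈ P0, (#(B.filter (fun b => Box al (D * t) (D * r) (cs t b) (ch r b) q)) : ℝ)
      ≤ (2 * D + 1) ^ 2 := by
    intro q _
    set F := B.filter (fun b => Box al (D * t) (D * r) (cs t b) (ch r b) q) with hF
    have h3 : F ⊆ (F.image Prod.fst) ×ˢ (F.image Prod.snd) := by
      intro b hb
      rw [mem_product]
      exact ⟨mem_image_of_mem _ hb, mem_image_of_mem _ hb⟩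
    have h4 : (#F : ℝ) ≤ #(F.image Prod.fst) * #(F.image Prod.snd) := by
      have := card_le_card h3
      rw [card_product] at this
      exact_mod_cast this
    have h5 : (#(F.image Prod.fst) : ℝ) ≤ 2 * D + 1 := by
      refine card_near (x := q.1 + al * q.2) ht hD _ ?_
      intro i hi
      obtain ⟨b, hb, rfl⟩ := mem_image.1 hi
      exact (mem_filter.1 hb).2.1
    have h6 : (#(F.image Prod.snd) : ℝ) ≤ 2 * D + 1 := by
      refine card_near (x := q.2) hr hD _ ?_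
      intro i hi
      obtain ⟨b, hb, rfl⟩ := mem_image.1 hi
      exact (mem_filter.1 hb).2.2
    calc (#F : ℝ) ≤ #(F.image Prod.fst) * #(F.image Prod.snd) := h4
      _ ≤ (2 * D + 1) * (2 * D + 1) := by gcongr
      _ = (2 * D + 1) ^ 2 := by ring
  calc _ ≤ ∑ q ∈ P0, (2 * D + 1) ^ 2 := sum_le_sum h2
    _ = (2 * D + 1) ^ 2 * #P0 := by rw [sum_const, nsmul_eq_mul]; ring

open Classical in
/-- a strip meets few boxes -/
theorem strip_boxes {al t r d a s R : ℝ} (ht : 0 < t) (hr : 0 < r) (hd : d ≤ t)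
    (ha : |a - al| ≤ t / r) {Y C : Finset (ℝ × ℝ)} (hC : C ⊆ Y)
    (hn : ∀ q ∈ C, |q.1 + a * q.2 - s| ≤ d)
    (hR : (#(Y.image (fun q : ℝ × ℝ => ⌊q.2 / r⌋)) : ℝ) ≤ R) :
    (#(C.image (gr al t r)) : ℝ) ≤ 5 * R := by
  set c : ℤ → ℝ := fun j => (s + (al - a) * ((j : ℝ) * r)) / t with hc
  have h1 : C.image (gr al t r) ⊆ (Y.image (fun q : ℝ × ℝ => ⌊q.2 / r⌋)).biUnion
      (fun j => (Icc (⌊c j⌋ - 2) (⌊c j⌋ + 2)).image (fun i => (i, j))) := by
    intro b hb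
    obtain ⟨q, hq, rfl⟩ := mem_image.1 hb
    rw [mem_biUnion]
    refine ⟨⌊q.2 / r⌋, mem_image_of_mem _ (hC hq), ?_⟩
    rw [mem_image]
    refine ⟨⌊(q.1 + al * q.2) / t⌋, ?_, rfl⟩
    set j := ⌊q.2 / r⌋ with hj
    have e1 : (j : ℝ) ≤ q.2 / r := Int.floor_le _
    have e2 : q.2 / r < (j : ℝ) + 1 := Int.lt_floor_add_one _
    have e3 : q.2 = q.2 / r * r := by field_simp
    have e4 : |q.2 - j * r| ≤ r := by
      rw [abs_le]; constructor
      · have : (j : ℝ) * r ≤ q.2 := by rw [e3]; exact mul_le_mul_of_nonneg_right e1 hr.le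
        linarith
      · have : q.2 ≤ ((j : ℝ) + 1) * r := by
          rw [e3]; exact mul_le_mul_of_nonneg_right e2.le hr.le
        linarith
    have e5 : |(al - a) * (q.2 - j * r)| ≤ t := by
      rw [abs_mul, abs_sub_comm]
      calc |a - al| * |q.2 - j * r| ≤ (t / r) * r := by gcongr
        _ = t := by field_simp
    have e6 := hn q hq
    have e7 : |(q.1 + al * q.2) - (s + (al - a) * ((j : ℝ) * r))| ≤ 2 * t := by
      have : (q.1 + al * q.2) - (s + (al - a) * ((j : ℝ) * r))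
          = (q.1 + a * q.2 - s) + (al - a) * (q.2 - j * r) := by ring
      rw [this]
      calc _ ≤ |q.1 + a * q.2 - s| + |(al - a) * (q.2 - j * r)| := abs_add_le _ _
        _ ≤ d + t := add_le_add e6 e5
        _ ≤ 2 * t := by linarith
    have e8 : |(q.1 + al * q.2) / t - c j| ≤ 2 := by
      rw [hc]
      simp only
      rw [← sub_div, abs_div, abs_of_pos ht, div_le_iff₀ ht]
      exact e7
    rw [mem_Icc]
    have e9 := abs_le.1 e8
    constructor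
    · have : (⌊c j⌋ : ℝ) ≤ c j := Int.floor_le _
      have : ((⌊c j⌋ - 2 : ℤ) : ℝ) ≤ (q.1 + al * q.2) / t := by push_cast; linarith
      exact Int.le_floor.2 this
    · have h0 : c j < ⌊c j⌋ + 1 := Int.lt_floor_add_one _
      have : (q.1 + al * q.2) / t < ((⌊c j⌋ + 2 + 1 : ℤ) : ℝ) := by push_cast; linarith
      have := Int.floor_lt.2 this
      omega
  have h2 := card_le_card h1
  have h3 : #((Y.image (fun q : ℝ × ℝ => ⌊q.2 / r⌋)).biUnion
      (fun j => (Icc (⌊c j⌋ - 2) (⌊c j⌋ + 2)).image (fun i => (i, j))))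
      ≤ #(Y.image (fun q : ℝ × ℝ => ⌊q.2 / r⌋)) * 5 := by
    refine card_biUnion_le_card_mul _ _ _ ?_
    intro j _
    refine card_image_le.trans ?_
    rw [Int.card_Icc]
    have : (⌊c j⌋ + 2 + 1 - (⌊c j⌋ - 2)) = 5 := by ring
    rw [this]; rfl
  have h4 : (#(C.image (gr al t r)) : ℝ) ≤ #(Y.image (fun q : ℝ × ℝ => ⌊q.2 / r⌋)) * 5 := by
    exact_mod_cast h2.trans h3
  linarith

/-- the power mean inequality -/
theorem power_mean {ι : Type*} (M : Finset ι) {f : ι → ℝ} (hf : ∀ i ∈ M, 0 ≤ f i) :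
    (∑ i ∈ M, f i) ^ 3 ≤ (#M : ℝ) ^ 2 * ∑ i ∈ M, f i ^ 3 := by
  rcases M.eq_empty_or_nonempty with hM | hM
  · rw [hM]; simp
  have hMpos : (0 : ℝ) < #M := by exact_mod_cast card_pos.2 hM
  have h := pow_sum_div_card_le_sum_pow hf 2
  norm_num at h
  rw [div_le_iff₀ (by positivity)] at h
  linarith

/-- lower bound for the sum of the cubes -/
theorem low {K lam : ℝ} (hK : 1 ≤ K) (hlam : 0 < lam) {A : Finset ℝ} {S : ℝ → Finset ℝ}
    {f : ℝ → ℝ → ℝ} (hf0 : ∀ a s, 0 ≤ f a s) (hcS : ∀ a ∈ A, (#(S a) : ℝ) ≤ K * lam)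
    (hkeep : ∀ a ∈ A, lam ^ 2 / (2 * K) ≤ ∑ s ∈ S a, f a s) :
    (#A : ℝ) * lam ^ 4 ≤ 8 * K ^ 5 * ∑ a ∈ A, ∑ s ∈ S a, f a s ^ 3 := by
  rcases A.eq_empty_or_nonempty with hA | hA
  · rw [hA]; simp
  have hApos : (0 : ℝ) < #A := by exact_mod_cast card_pos.2 hA
  have hT : ∑ x ∈ A.sigma S, f x.1 x.2 = ∑ a ∈ A, ∑ s ∈ S a, f a s :=
    sum_sigma A S (fun x => f x.1 x.2)
  have hT3 : ∑ x ∈ A.sigma S, f x.1 x.2 ^ 3 = ∑ a ∈ A, ∑ s ∈ S a, f a s ^ 3 :=
    sum_sigma A S (fun x => f x.1 x.2 ^ 3)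
  have hTc : (#(A.sigma S) : ℝ) ≤ #A * (K * lam) := by
    rw [card_sigma]
    push_cast
    calc ∑ a ∈ A, (#(S a) : ℝ) ≤ ∑ a ∈ A, K * lam := sum_le_sum hcS
      _ = #A * (K * lam) := by rw [sum_const, nsmul_eq_mul]
  have hlow : (#A : ℝ) * (lam ^ 2 / (2 * K)) ≤ ∑ x ∈ A.sigma S, f x.1 x.2 := by
    rw [hT]
    calc (#A : ℝ) * (lam ^ 2 / (2 * K)) = ∑ a ∈ A, lam ^ 2 / (2 * K) := by
          rw [sum_const, nsmul_eq_mul]
      _ ≤ _ := sum_le_sum hkeep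
  have hpm2 : (∑ x ∈ A.sigma S, f x.1 x.2) ^ 3
      ≤ (#(A.sigma S) : ℝ) ^ 2 * ∑ x ∈ A.sigma S, f x.1 x.2 ^ 3 :=
    power_mean _ (fun x _ => hf0 x.1 x.2)
  rw [hT3] at hpm2
  have hW0 : 0 ≤ ∑ a ∈ A, ∑ s ∈ S a, f a s ^ 3 :=
    sum_nonneg fun a _ => sum_nonneg fun s _ => pow_nonneg (hf0 a s) 3
  generalize ∑ a ∈ A, ∑ s ∈ S a, f a s ^ 3 = W at hpm2 hW0 ⊢
  have hlow3 : ((#A : ℝ) * (lam ^ 2 / (2 * K))) ^ 3 ≤ (#A * (K * lam)) ^ 2 * W := by
    calc ((#A : ℝ) * (lam ^ 2 / (2 * K))) ^ 3 ≤ (∑ x ∈ A.sigma S, f x.1 x.2) ^ 3 := by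
          gcongr
      _ ≤ (#(A.sigma S) : ℝ) ^ 2 * W := hpm2
      _ ≤ (#A * (K * lam)) ^ 2 * W := by gcongr
  generalize (#A : ℝ) = n at hApos hlow3 ⊢
  have h1 : (n ^ 2 * lam ^ 2) * (n * lam ^ 4) ≤ (n ^ 2 * lam ^ 2) * (8 * K ^ 5 * W) := by
    have h2 : (n ^ 2 * lam ^ 2) * (n * lam ^ 4)
        = 8 * K ^ 3 * (n * (lam ^ 2 / (2 * K))) ^ 3 := by
      field_simp
      norm_num
    have h3 : (n ^ 2 * lam ^ 2) * (8 * K ^ 5 * W)
        = 8 * K ^ 3 * ((n * (K * lam)) ^ 2 * W) := by ring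
    rw [h2, h3]
    gcongr
  exact le_of_mul_le_mul_left h1 (by positivity)

/-- power mean for a function supported on few indices -/
theorem pm_supp {ι : Type*} {G : Finset ι} {c : ι → ℝ} {M : Finset ι} {R : ℝ}
    (hc0 : ∀ b, 0 ≤ c b) (hz : ∀ b, b ∉ M → c b = 0) (hM : (#M : ℝ) ≤ R) :
    (∑ b ∈ G, c b) ^ 3 ≤ R ^ 2 * ∑ b ∈ G, c b ^ 3 := by
  classical
  have h1 : ∑ b ∈ G, c b = ∑ b ∈ G ∩ M, c b := by
    refine (sum_subset inter_subset_left ?_).symm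
    intro b hb hb2
    exact hz b (fun h => hb2 (mem_inter.2 ⟨hb, h⟩))
  have h5 : (∑ b ∈ G ∩ M, c b) ^ 3 ≤ (#(G ∩ M) : ℝ) ^ 2 * ∑ b ∈ G ∩ M, c b ^ 3 :=
    power_mean _ (fun b _ => hc0 b)
  have h6 : ∑ b ∈ G ∩ M, c b ^ 3 ≤ ∑ b ∈ G, c b ^ 3 :=
    sum_le_sum_of_subset_of_nonneg inter_subset_left (fun b _ _ => pow_nonneg (hc0 b) 3)
  have h7 : (#(G ∩ M) : ℝ) ≤ R := le_trans (by exact_mod_cast card_le_card inter_subset_right) hM
  have h8 : 0 ≤ ∑ b ∈ G ∩ M, c b ^ 3 := sum_nonneg fun b _ => pow_nonneg (hc0 b) 3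
  have h9 : 0 ≤ R := le_trans (by positivity) h7
  rw [h1]
  calc _ ≤ (#(G ∩ M) : ℝ) ^ 2 * ∑ b ∈ G ∩ M, c b ^ 3 := h5
    _ ≤ R ^ 2 * ∑ b ∈ G, c b ^ 3 := by gcongr

/-- arithmetic of the conclusion -/
theorem fin_arith {K lam m D R mu n W E : ℝ} (hK : 1 ≤ K) (hlam : 0 < lam) (hm : 0 < m)
    (h1 : n * lam ^ 4 ≤ 8 * K ^ 5 * W) (h2 : m ^ 3 * W ≤ (5 * R) ^ 2 * E)
    (h3 : E ≤ K * (lam * m) * (2 * (2 * D + 1) ^ 2 * K ^ 2 * m * mu)
      * ((2 * D + 1) ^ 2 * (K * lam ^ 2 * m))) :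
    n * lam ≤ 400 * (2 * D + 1) ^ 4 * K ^ 9 * R ^ 2 * mu := by
  have hfin : (m ^ 3 * lam ^ 3) * (n * lam)
      ≤ (m ^ 3 * lam ^ 3) * (400 * (2 * D + 1) ^ 4 * K ^ 9 * R ^ 2 * mu) := by
    calc (m ^ 3 * lam ^ 3) * (n * lam) = m ^ 3 * (n * lam ^ 4) := by ring
      _ ≤ m ^ 3 * (8 * K ^ 5 * W) := by gcongr
      _ = 8 * K ^ 5 * (m ^ 3 * W) := by ring
      _ ≤ 8 * K ^ 5 * ((5 * R) ^ 2 * E) := by gcongr
      _ ≤ 8 * K ^ 5 * ((5 * R) ^ 2 *
          (K * (lam * m) * (2 * (2 * D + 1) ^ 2 * K ^ 2 * m * mu)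
            * ((2 * D + 1) ^ 2 * (K * lam ^ 2 * m)))) := by gcongr
      _ = (m ^ 3 * lam ^ 3) * (400 * (2 * D + 1) ^ 4 * K ^ 9 * R ^ 2 * mu) := by ring
  exact le_of_mul_le_mul_left hfin (by positivity)

open Classical in
/-- **[SEG]** -/
theorem seg {K lam m d t r al D R mu : ℝ} {Y P0 : Finset (ℝ × ℝ)} {A : Finset ℝ}
    {S : ℝ → Finset ℝ} {C : ℝ → ℝ → Finset (ℝ × ℝ)}
    (h : Seg K lam m d t r al D R mu Y P0 A S C) :
    (#A : ℝ) * lam ≤ 400 * (2 * D + 1) ^ 4 * K ^ 9 * R ^ 2 * mu := by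
  obtain ⟨hK, hlam, hm, ht, hr, hdt, hD, hsl, hcS, hsub, hdisj, hnear, hfull, hcells, hbox, hcP,
    hstar⟩ := h
  have hmu : 0 ≤ mu := le_trans (by positivity) (hbox 0 0)
  have hR : 0 ≤ R := le_trans (by positivity) hcells
  rcases A.eq_empty_or_nonempty with hA | hA
  · rw [hA]; simp; positivity
  have hApos : (0 : ℝ) < #A := by exact_mod_cast card_pos.2 hA
  set D' : ℝ := (2 * D + 1) ^ 2 with hD'
  have hD'1 : 1 ≤ D' := by rw [hD']; nlinarith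
  set K' : ℝ := 2 * D' * K ^ 2 with hK'
  have hK'0 : 0 < K' := by positivity
  set g : ℝ × ℝ → ℤ × ℤ := gr al t r with hg
  set B : Finset (ℤ × ℤ) := Y.image g with hB
  set y : ℤ × ℤ → ℝ := fun b => #(Y.filter (fun q => g q = b)) with hy
  set p : ℤ × ℤ → ℝ :=
    fun b => #(P0.filter (Box al (D * t) (D * r) (cs t b) (ch r b))) with hp
  have hp0 : ∀ b, 0 ≤ p b := fun b => by positivity
  have hy0 : ∀ b, 0 ≤ y b := fun b => by positivity
  have hsp : ∑ b ∈ B, p b ≤ D' * (K * lam ^ 2 * m) := by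
    calc ∑ b ∈ B, p b ≤ D' * #P0 := overlap ht hr hD B P0
      _ ≤ D' * (K * lam ^ 2 * m) := by gcongr
  set Gd : Finset (ℤ × ℤ) := B.filter (fun b => p b ≤ K' * m * y b) with hGd
  set Bd : Finset (ℤ × ℤ) := B.filter (fun b => ¬ p b ≤ K' * m * y b) with hBd
  -- the bad boxes carry little of `Y`
  have hbad : ∑ b ∈ Bd, y b ≤ lam ^ 2 / (2 * K) := by
    have h1 : ∑ b ∈ Bd, K' * m * y b ≤ D' * (K * lam ^ 2 * m) := by
      calc ∑ b ∈ Bd, K' * m * y b ≤ ∑ b ∈ Bd, p b := by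
            refine sum_le_sum fun b hb => ?_
            have := (mem_filter.1 hb).2
            push Not at this
            exact this.le
        _ ≤ ∑ b ∈ B, p b := sum_le_sum_of_subset_of_nonneg (filter_subset _ _)
            (fun b _ _ => hp0 b)
        _ ≤ _ := hsp
    rw [← mul_sum] at h1
    rw [le_div_iff₀ (by positivity)]
    have h2 : (D' * K * m) * ((∑ b ∈ Bd, y b) * (2 * K)) ≤ (D' * K * m) * lam ^ 2 := by
      have : (D' * K * m) * ((∑ b ∈ Bd, y b) * (2 * K)) = K' * m * ∑ b ∈ Bd, y b := by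
        rw [hK']; ring
      rw [this]
      linarith
    exact le_of_mul_le_mul_left h2 (by positivity)
  -- number of points of a strip in a box
  set c : ℝ → ℝ → ℤ × ℤ → ℝ := fun a s b => #((C a s).filter (fun q => g q = b)) with hc
  have hc0 : ∀ a s b, 0 ≤ c a s b := fun a s b => by positivity
  -- for fixed `a` the strips are disjoint
  have hcy : ∀ a ∈ A, ∀ b, ∑ s ∈ S a, c a s b ≤ y b := by
    intro a ha b
    have h1 : ∑ s ∈ S a, #((C a s).filter (fun q => g q = b))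
        = #((S a).biUnion fun s => (C a s).filter (fun q => g q = b)) := by
      rw [card_biUnion]
      intro s hs s' hs' hne
      exact (hdisj a ha s hs s' hs' hne).mono (filter_subset _ _) (filter_subset _ _)
    have h2 : #((S a).biUnion fun s => (C a s).filter (fun q => g q = b))
        ≤ #(Y.filter (fun q => g q = b)) := by
      refine card_le_card ?_
      intro q hq
      obtain ⟨s, hs, hq⟩ := mem_biUnion.1 hq
      rw [mem_filter] at hq ⊢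
      exact ⟨hsub a ha s hs hq.1, hq.2⟩
    have h3 := h1.le.trans h2
    simp only [hc, hy]
    exact_mod_cast h3
  -- all the points of a strip are in boxes of `B`
  have hcs : ∀ a ∈ A, ∀ s ∈ S a, (#(C a s) : ℝ) = ∑ b ∈ B, c a s b := by
    intro a ha s hs
    have h1 : #(C a s) = ∑ b ∈ B, #((C a s).filter (fun q => g q = b)) :=
      card_eq_sum_card_fiberwise (fun q hq => mem_coe.2 (mem_image_of_mem g (hsub a ha s hs hq)))
    simp only [hc]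
    exact_mod_cast h1
  set f : ℝ → ℝ → ℝ := fun a s => ∑ b ∈ Gd, c a s b with hf
  have hf0 : ∀ a s, 0 ≤ f a s := fun a s => sum_nonneg fun b _ => hc0 a s b
  -- every class keeps half of its flags
  have hkeep : ∀ a ∈ A, lam ^ 2 / (2 * K) ≤ ∑ s ∈ S a, f a s := by
    intro a ha
    have h1 : ∑ s ∈ S a, (#(C a s) : ℝ)
        = ∑ s ∈ S a, f a s + ∑ b ∈ Bd, ∑ s ∈ S a, c a s b := by
      rw [sum_comm (s := Bd), ← sum_add_distrib]
      refine sum_congr rfl fun s hs => ?_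
      rw [hcs a ha s hs, hf]
      exact (sum_filter_add_sum_filter_not B _ _).symm
    have h2 : ∑ b ∈ Bd, ∑ s ∈ S a, c a s b ≤ lam ^ 2 / (2 * K) :=
      le_trans (sum_le_sum fun b _ => hcy a ha b) hbad
    have h3 := hfull a ha
    have h4 : lam ^ 2 / K ≤ ∑ s ∈ S a, (#(C a s) : ℝ) := by
      rw [div_le_iff₀ (by positivity)]; linarith
    have h5 : lam ^ 2 / K = lam ^ 2 / (2 * K) + lam ^ 2 / (2 * K) := by field_simp; norm_num
    linarith
  -- power means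
  have hpm : ∀ a ∈ A, ∀ s ∈ S a, f a s ^ 3 ≤ (5 * R) ^ 2 * ∑ b ∈ Gd, c a s b ^ 3 := by
    intro a ha s hs
    refine pm_supp (M := (C a s).image g) (hc0 a s) ?_
      (strip_boxes ht hr hdt (hsl a ha) (hsub a ha s hs) (hnear a ha s hs) hcells)
    intro b hb
    simp only [hc, Nat.cast_eq_zero, card_eq_zero, filter_eq_empty_iff]
    intro q hq hqb
    exact hb (hqb ▸ mem_image_of_mem g hq)
  have hWlow := low hK hlam hf0 hcS hkeep
  -- the upper bound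
  have hWE : m ^ 3 * ∑ a ∈ A, ∑ s ∈ S a, f a s ^ 3
      ≤ (5 * R) ^ 2 * ∑ b ∈ Gd, ∑ a ∈ A, ∑ s ∈ S a, (m * c a s b) ^ 3 := by
    have h1 : ∑ a ∈ A, ∑ s ∈ S a, f a s ^ 3
        ≤ (5 * R) ^ 2 * ∑ a ∈ A, ∑ s ∈ S a, ∑ b ∈ Gd, c a s b ^ 3 := by
      rw [mul_sum]
      refine sum_le_sum fun a ha => ?_
      rw [mul_sum]
      exact sum_le_sum fun s hs => hpm a ha s hs
    have h2 : ∑ b ∈ Gd, ∑ a ∈ A, ∑ s ∈ S a, (m * c a s b) ^ 3
        = m ^ 3 * ∑ a ∈ A, ∑ s ∈ S a, ∑ b ∈ Gd, c a s b ^ 3 := by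
      rw [sum_comm, mul_sum]
      refine sum_congr rfl fun a _ => ?_
      rw [sum_comm, mul_sum]
      refine sum_congr rfl fun s _ => ?_
      rw [mul_sum]
      exact sum_congr rfl fun b _ => by ring
    rw [h2]
    calc _ ≤ m ^ 3 * ((5 * R) ^ 2 * ∑ a ∈ A, ∑ s ∈ S a, ∑ b ∈ Gd, c a s b ^ 3) := by
          gcongr
      _ = _ := by ring
  refine fin_arith hK hlam hm hWlow hWE ?_
  have h1 : ∀ b ∈ Gd, ∑ a ∈ A, ∑ s ∈ S a, (m * c a s b) ^ 3
      ≤ K * (lam * m) * (K' * m * mu) * p b := by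
    intro b hb
    have hbG := (mem_filter.1 hb).2
    have hyb : y b ≤ mu := by
      refine le_trans ?_ (hbox (cs t b) (ch r b))
      have : Y.filter (fun q => g q = b) ⊆ Y.filter (Box al t r (cs t b) (ch r b)) := by
        intro q hq
        rw [mem_filter] at hq ⊢
        exact ⟨hq.1, gr_box ht hr hq.2⟩
      simp only [hy]
      exact_mod_cast card_le_card this
    have h2 : ∑ a ∈ A, ∑ s ∈ S a, (m * c a s b) ^ 3
        ≤ ∑ a ∈ A, ∑ s ∈ S a,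
          (m * #((C a s).filter (Box al t r (cs t b) (ch r b)))) ^ 3 := by
      refine sum_le_sum fun a _ => sum_le_sum fun s _ => ?_
      have : (C a s).filter (fun q => g q = b)
          ⊆ (C a s).filter (Box al t r (cs t b) (ch r b)) := by
        intro q hq
        rw [mem_filter] at hq ⊢
        exact ⟨hq.1, gr_box ht hr hq.2⟩
      have h3 : c a s b ≤ #((C a s).filter (Box al t r (cs t b) (ch r b))) := by
        simp only [hc]
        exact_mod_cast card_le_card this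
      have h4 := hc0 a s b
      gcongr
    have h5 : p b ≤ K' * m * mu := hbG.trans (by gcongr)
    have h6 := hp0 b
    calc _ ≤ _ := h2
      _ ≤ K * (lam * m) * p b ^ 2 := hstar _ _
      _ = K * (lam * m) * p b * p b := by ring
      _ ≤ K * (lam * m) * (K' * m * mu) * p b := by gcongr
  have h2 : ∑ b ∈ Gd, p b ≤ D' * (K * lam ^ 2 * m) :=
    le_trans (sum_le_sum_of_subset_of_nonneg (filter_subset _ _) (fun b _ _ => hp0 b)) hsp
  calc _ ≤ ∑ b ∈ Gd, K * (lam * m) * (K' * m * mu) * p b := sum_le_sum h1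
    _ = K * (lam * m) * (K' * m * mu) * ∑ b ∈ Gd, p b := by rw [mul_sum]
    _ ≤ K * (lam * m) * (K' * m * mu) * (D' * (K * lam ^ 2 * m)) := by gcongr

end Vale.Agent.P065.H626
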