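import Vale.Agent.P065.UB.H759.StarDef
import Vale.Agent.P065.H626.AC2
import Vale.Agent.P065.UB.H196.EndX

/-!
# P065, upper bound, line P: assembly of U2 (helper626)
-/

set_option autoImplicit false

namespace Vale.Agent.P065.H626.U2

open Finset Vale.Agent.P065.UB Vale.Agent.P065.UB.H759
open Vale.Agent.P118.OF (Cov Sep)
open Vale.Agent.P065.H626
open Vale.Agent.P065.H196 (MaxSep EndData StEnd)

section gi

variable {s C0 : ℕ} {K L lam δ : ℝ} {Q : Finset Pt} {ι : Type} {W : Finset ι} {a b : ι → ℝ}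
  {Y : ι → Finset Pt} {J : ι → Finset (Pt × Pt)} {w₀ : ι} {ε : ℝ} {p₁ p₂ : Pt}
  {P3 G0 : Finset Pt}

open Classical in
/-- the apex with multiplier `x` -/
noncomputable def pinv (p₁ p₂ : Pt) (P' : Finset Pt) (x : ℝ) : Pt :=
  if h : ∃ p ∈ P', al p₁ p₂ p = x then h.choose else p₁

lemma pinv_spec {P' : Finset Pt} {x : ℝ} (hx : ∃ p ∈ P', al p₁ p₂ p = x) :
    pinv p₁ p₂ P' x ∈ P' ∧ al p₁ p₂ (pinv p₁ p₂ P' x) = x := by
  classical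
  unfold pinv
  rw [dif_pos hx]
  exact hx.choose_spec

lemma al_inj (h : Sl s C0 K L lam δ Q W a b Y J w₀ ε p₁ p₂ P3 G0) {P' : Finset Pt}
    (hP' : P' ⊆ P3) (hinj : Set.InjOn (fun p : Pt => ⌊p.1 / δ⌋) P') :
    Set.InjOn (al p₁ p₂) P' := by
  intro p hp p' hp' he
  refine hinj hp hp' ?_
  have h1 := h.ne2 (hP' (mem_coe.1 hp))
  have h2 := h.ne2 (hP' (mem_coe.1 hp'))
  have h3 : gg p₁ p₂ p = gg p₁ p₂ p' := by rw [gg_eq h1, gg_eq h2, he]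
  unfold gg at h3
  have h12 := h.fr.ne12
  have h4 : p₂.1 - p'.1 = p₂.1 - p.1 := by
    rw [div_eq_div_iff h1 h2] at h3
    exact mul_left_cancel₀ h12 h3
  have h5 : p.1 = p'.1 := by linarith
  simp only [h5]

lemma pinv_al (h : Sl s C0 K L lam δ Q W a b Y J w₀ ε p₁ p₂ P3 G0) {P' : Finset Pt}
    (hP' : P' ⊆ P3) (hinj : Set.InjOn (fun p : Pt => ⌊p.1 / δ⌋) P') {p : Pt} (hp : p ∈ P') :
    pinv p₁ p₂ P' (al p₁ p₂ p) = p := by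
  obtain ⟨h1, h2⟩ := pinv_spec (p₁ := p₁) (p₂ := p₂) ⟨p, hp, rfl⟩
  exact al_inj h hP' hinj (mem_coe.2 h1) (mem_coe.2 hp) h2

/-- the cells of the class `x` -/
noncomputable def Yx (L lam δ ε : ℝ) (p₁ p₂ : Pt) (N : ℝ) (W : Finset ι) (a : ι → ℝ)
    (J : ι → Finset (Pt × Pt)) (w₀ : ι) (G : Finset Pt) (P' : Finset Pt) (x : ℝ) :
    Finset (ℝ × ℝ) := Ya L lam δ ε p₁ p₂ N W a J w₀ G (pinv p₁ p₂ P' x)

open Classical in
/-- the strips of the class `x` -/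
noncomputable def Sx (L lam δ ε : ℝ) (p₁ p₂ : Pt) (N : ℝ) (W : Finset ι) (a : ι → ℝ)
    (J : ι → Finset (Pt × Pt)) (w₀ : ι) (G : Finset Pt) (P' : Finset Pt) (x : ℝ) : Finset ℝ :=
  (Yx L lam δ ε p₁ p₂ N W a J w₀ G P' x).image (st L δ p₁ p₂ (pinv p₁ p₂ P' x))

open Classical in
/-- the cells on the strip `y` of the class `x` -/
noncomputable def Cx (L lam δ ε : ℝ) (p₁ p₂ : Pt) (N : ℝ) (W : Finset ι) (a : ι → ℝ)
    (J : ι → Finset (Pt × Pt)) (w₀ : ι) (G : Finset Pt) (P' : Finset Pt) (x y : ℝ) :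
    Finset (ℝ × ℝ) :=
  {k ∈ Yx L lam δ ε p₁ p₂ N W a J w₀ G P' x | st L δ p₁ p₂ (pinv p₁ p₂ P' x) k = y}

open Classical in
/-- the two projections of the cells of `G` -/
noncomputable def Bx1 (L δ ε : ℝ) (p₁ p₂ : Pt) (G : Finset Pt) : Finset ℝ :=
  G.image (fun q => rd (L ^ 8 * δ) (cc ε p₁ p₂ p₁ q))

open Classical in
noncomputable def Hx1 (L δ ε : ℝ) (p₁ p₂ : Pt) (G : Finset Pt) : Finset ℝ :=
  G.image (fun q => rd (L ^ 8 * δ) (cc ε p₁ p₂ p₂ q))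

lemma Ya_mem {G : Finset Pt} {N : ℝ} {p : Pt} {k : ℝ × ℝ}
    (hk : k ∈ Ya L lam δ ε p₁ p₂ N W a J w₀ G p) :
    ∃ q ∈ G, kap (L ^ 8 * δ) ε p₁ p₂ q = k := by
  classical
  unfold Ya at hk
  obtain ⟨q, hq, rfl⟩ := mem_image.1 hk
  obtain ⟨w, _, hq⟩ := mem_biUnion.1 hq
  exact ⟨q, (mem_filter.1 (mem_filter.1 hq).1).1, rfl⟩

open Classical in
/-- the conclusion of `StStarC` for one selection -/
def StarFor (e : ℕ) (L lam δ : ℝ) (Q : Finset Pt) {ι : Type} (W : Finset ι) (a : ι → ℝ)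
    (J : ι → Finset (Pt × Pt)) (w₀ : ι) (ε : ℝ) (p₁ p₂ : Pt) (P' G : Finset Pt) : Prop :=
  ∀ al' : ℝ, |al'| ≤ L → ∀ t r s₀ h₀ : ℝ, L ^ 8 * δ ≤ t → L ^ 8 * δ ≤ r →
    ∑ p ∈ P', ∑ x ∈ (Ya L lam δ ε p₁ p₂ #Q W a J w₀ G p).image (st L δ p₁ p₂ p),
      (#Q / lam ^ 2 * #{k ∈ Ya L lam δ ε p₁ p₂ #Q W a J w₀ G p |
        st L δ p₁ p₂ p k = x ∧ Box al' t r s₀ h₀ k} : ℝ) ^ 3 ≤
      L ^ e * (#Q / lam) *
        (#{k ∈ P0c L ε p₁ p₂ Q | Box al' (L ^ 2 * t) (L ^ 2 * r) s₀ h₀ k} : ℝ) ^ 2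

open Classical in
/-- the star inequality of `GridIn` -/
lemma star_of (h : Sl s C0 K L lam δ Q W a b Y J w₀ ε p₁ p₂ P3 G0) {P' : Finset Pt}
    (hP' : P' ⊆ P3) (hinj : Set.InjOn (fun p : Pt => ⌊p.1 / δ⌋) P') {G : Finset Pt}
    {e3 u : ℕ} (hstar : StarFor e3 L lam δ Q W a J w₀ ε p₁ p₂ P' G) (hu : e3 + 2 ≤ u)
    {x : ℝ} (hx : x ∈ P'.image (al p₁ p₂)) {t r : ℝ} (ht : L ^ 8 * δ ≤ t) (htr : t ≤ r)
    (s₀ h₀ : ℝ) :
    ∑ y ∈ (P'.image (al p₁ p₂)).filter (fun y => |y - x| ≤ t / r),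
      ∑ z ∈ Sx L lam δ ε p₁ p₂ #Q W a J w₀ G P' y,
      (#Q / lam ^ 2 * #((Cx L lam δ ε p₁ p₂ #Q W a J w₀ G P' y z).filter
        (Box x t r s₀ h₀))) ^ 3
    ≤ L ^ u * (lam * (#Q / lam ^ 2)) *
      (#((P0c L ε p₁ p₂ Q).filter (Box x (L ^ u * t) (L ^ u * r) s₀ h₀)) : ℝ) ^ 2 := by
  have hL1 := h.fr.pj.L1
  have hL0 := h.fr.L0
  have hl0 : 0 < lam := by linarith [h.fr.pj.lam1]
  have hN := h.fr.pj.N0
  have hd := h.d0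
  have ht0 : 0 < t := lt_of_lt_of_le hd ht
  have hr0 : 0 < r := lt_of_lt_of_le ht0 htr
  obtain ⟨p₀, hp₀, rfl⟩ := mem_image.1 hx
  have hal := (h.al_abs (hP' hp₀)).2.1
  have h1 := hstar (al p₁ p₂ p₀) hal t r s₀ h₀ ht (ht.trans htr)
  have h2 : ∑ y ∈ (P'.image (al p₁ p₂)).filter (fun y => |y - al p₁ p₂ p₀| ≤ t / r),
      ∑ z ∈ Sx L lam δ ε p₁ p₂ #Q W a J w₀ G P' y,
      (#Q / lam ^ 2 * #((Cx L lam δ ε p₁ p₂ #Q W a J w₀ G P' y z).filter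
        (Box (al p₁ p₂ p₀) t r s₀ h₀)) : ℝ) ^ 3
      ≤ ∑ y ∈ P'.image (al p₁ p₂), ∑ z ∈ Sx L lam δ ε p₁ p₂ #Q W a J w₀ G P' y,
      (#Q / lam ^ 2 * #((Cx L lam δ ε p₁ p₂ #Q W a J w₀ G P' y z).filter
        (Box (al p₁ p₂ p₀) t r s₀ h₀)) : ℝ) ^ 3 := by
    refine sum_le_sum_of_subset_of_nonneg (filter_subset _ _) fun y _ _ => ?_
    exact sum_nonneg fun z _ => by positivity
  have h3 : ∑ y ∈ P'.image (al p₁ p₂), ∑ z ∈ Sx L lam δ ε p₁ p₂ #Q W a J w₀ G P' y,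
      (#Q / lam ^ 2 * #((Cx L lam δ ε p₁ p₂ #Q W a J w₀ G P' y z).filter
        (Box (al p₁ p₂ p₀) t r s₀ h₀)) : ℝ) ^ 3
      = ∑ p ∈ P', ∑ x ∈ (Ya L lam δ ε p₁ p₂ #Q W a J w₀ G p).image (st L δ p₁ p₂ p),
      (#Q / lam ^ 2 * #{k ∈ Ya L lam δ ε p₁ p₂ #Q W a J w₀ G p |
        st L δ p₁ p₂ p k = x ∧ Box (al p₁ p₂ p₀) t r s₀ h₀ k} : ℝ) ^ 3 := by
    rw [sum_image (fun p hp p' hp' he => al_inj h hP' hinj hp hp' he)]
    refine sum_congr rfl fun p hp => ?_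
    unfold Sx Cx Yx
    rw [pinv_al h hP' hinj hp]
    refine sum_congr rfl fun z _ => ?_
    rw [filter_filter]
  have hKt : L ^ 2 * t ≤ L ^ u * t := by
    have : L ^ 2 ≤ L ^ u := pow_le_pow_right₀ hL1 (by omega)
    gcongr
  have hKr : L ^ 2 * r ≤ L ^ u * r := by
    have : L ^ 2 ≤ L ^ u := pow_le_pow_right₀ hL1 (by omega)
    gcongr
  have h4 : (#{k ∈ P0c L ε p₁ p₂ Q | Box (al p₁ p₂ p₀) (L ^ 2 * t) (L ^ 2 * r) s₀ h₀ k} : ℝ)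
      ≤ #((P0c L ε p₁ p₂ Q).filter (Box (al p₁ p₂ p₀) (L ^ u * t) (L ^ u * r) s₀ h₀)) := by
    have : #{k ∈ P0c L ε p₁ p₂ Q | Box (al p₁ p₂ p₀) (L ^ 2 * t) (L ^ 2 * r) s₀ h₀ k}
      ≤ #((P0c L ε p₁ p₂ Q).filter (Box (al p₁ p₂ p₀) (L ^ u * t) (L ^ u * r) s₀ h₀)) := by
      refine card_le_card fun k hk => ?_
      obtain ⟨h5, h6, h7⟩ := mem_filter.1 hk
      exact mem_filter.2 ⟨h5, h6.trans hKt, h7.trans hKr⟩
    exact_mod_cast this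
  have e : lam * (#Q / lam ^ 2) = (#Q : ℝ) / lam := by field_simp
  have hu' : L ^ e3 ≤ L ^ u := pow_le_pow_right₀ hL1 (by omega)
  rw [e]
  refine h2.trans (h3.le.trans (h1.trans ?_))
  gcongr

open Classical in
/-- **GridIn** from the selected data -/
lemma gridIn_of (h : Sl s C0 K L lam δ Q W a b Y J w₀ ε p₁ p₂ P3 G0) (hs8 : s + 8 ≤ C0)
    {P' : Finset Pt} (hP' : P' ⊆ P3) (hinj : Set.InjOn (fun p : Pt => ⌊p.1 / δ⌋) P')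
    {e1 e2 e3 u : ℕ} (hPc : lam ≤ L ^ (e1 + 1) * #P')
    (hfib : ∀ k : ℝ × ℝ,
      lam ^ 2 * (#{q ∈ G0 | kap (L ^ 8 * δ) ε p₁ p₂ q = k} : ℝ) ≤ L ^ e2 * #Q)
    (hstar : StarFor e3 L lam δ Q W a J w₀ ε p₁ p₂ P' (Gp L lam δ ε p₁ p₂ #Q G0))
    (hu1 : e1 + 1 ≤ u) (hu2 : e2 + 1 ≤ u) (hu3 : e3 + 2 ≤ u) :
    GridIn (L ^ u) lam (#Q / lam ^ 2) (L ^ 8 * δ) (P'.image (al p₁ p₂))
      (Bx1 L δ ε p₁ p₂ (Gp L lam δ ε p₁ p₂ #Q G0)) (Hx1 L δ ε p₁ p₂ (Gp L lam δ ε p₁ p₂ #Q G0))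
      (Sx L lam δ ε p₁ p₂ #Q W a J w₀ (Gp L lam δ ε p₁ p₂ #Q G0) P')
      (Cx L lam δ ε p₁ p₂ #Q W a J w₀ (Gp L lam δ ε p₁ p₂ #Q G0) P')
      (P0c L ε p₁ p₂ Q) := by
  have hL1 := h.fr.pj.L1
  have hL0 := h.fr.L0
  have hl1 := h.fr.pj.lam1
  have hl0 : 0 < lam := by linarith
  have hN := h.fr.pj.N0
  have hd := h.d0
  have hK1 := h.fr.pj.K1
  have hpow : ∀ {i : ℕ}, i ≤ u → L ^ i ≤ L ^ u := fun hi => pow_le_pow_right₀ hL1 hi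
  have hLu : L ≤ L ^ u := by
    calc L = L ^ 1 := (pow_one L).symm
      _ ≤ L ^ u := hpow (by omega)
  have h6K : 6 * K ≤ L ^ u := by
    have h1 := h.fr.pj.mulK (s := 1) (t := 3) (by have := h.fr.C40; omega)
    norm_num at h1
    linarith
  set G := Gp L lam δ ε p₁ p₂ #Q G0 with hG
  have hGG : G ⊆ G0 := Gp_sub
  have hmem : ∀ x ∈ P'.image (al p₁ p₂), pinv p₁ p₂ P' x ∈ P' ∧
      al p₁ p₂ (pinv p₁ p₂ P' x) = x := by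
    intro x hx
    obtain ⟨p, hp, he⟩ := mem_image.1 hx
    exact pinv_spec ⟨p, hp, he⟩
  refine ⟨?_, hd, hl0, by positivity, ?_, ?_, ?_, ?_, ?_, ?_, ?_, ?_, ?_, ?_, ?_, ?_, ?_⟩
  · have h1 := h.fr.Lbig
    have h2 : (3072 : ℝ) ≤ 2 ^ 40 := by norm_num
    linarith
  · rw [card_image_of_injOn (al_inj h hP' hinj)]
    exact hPc.trans (mul_le_mul_of_nonneg_right (hpow hu1) (Nat.cast_nonneg _))
  · intro x hx
    obtain ⟨p, hp, rfl⟩ := mem_image.1 hx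
    obtain ⟨h1, h2, -, -⟩ := h.al_abs (hP' hp)
    refine ⟨?_, h2.trans hLu⟩
    calc (1 : ℝ) = L * (1 / L) := by field_simp
      _ ≤ L * |al p₁ p₂ p| := by gcongr
      _ ≤ L ^ u * |al p₁ p₂ p| := by gcongr
  · intro x hx y hy hne
    obtain ⟨q, _, rfl⟩ := mem_image.1 hx
    obtain ⟨q', _, rfl⟩ := mem_image.1 hy
    rw [Real.dist_eq]
    exact rd_sep hd hne
  · intro x hx y hy hne
    obtain ⟨q, _, rfl⟩ := mem_image.1 hx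
    obtain ⟨q', _, rfl⟩ := mem_image.1 hy
    rw [Real.dist_eq]
    exact rd_sep hd hne
  · refine (h.card_pos h.fr.m1 _ fun x hx => ?_).trans
      (mul_le_mul_of_nonneg_right h6K hl0.le)
    obtain ⟨q, hq, rfl⟩ := mem_image.1 hx
    exact ⟨q, hGG hq, (h.jn q (hGG hq)).1, rfl⟩
  · refine (h.card_pos h.fr.m2 _ fun x hx => ?_).trans
      (mul_le_mul_of_nonneg_right h6K hl0.le)
    obtain ⟨q, hq, rfl⟩ := mem_image.1 hx
    exact ⟨q, hGG hq, (h.jn q (hGG hq)).2.1, rfl⟩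
  · intro x hx
    unfold Sx Yx
    refine (h.cardS hGG (hP' (hmem x hx).1)).trans ?_
    have : L ^ 2 ≤ L ^ u := hpow (by omega)
    gcongr
  · intro x _ y _ k hk
    obtain ⟨q, hq, rfl⟩ := Ya_mem (mem_filter.1 hk).1
    exact ⟨mem_image.2 ⟨q, hq, rfl⟩, mem_image.2 ⟨q, hq, rfl⟩⟩
  · intro x _ y _ y' _ hne
    rw [disjoint_left]
    intro k hk hk'
    exact hne ((mem_filter.1 hk).2.symm.trans (mem_filter.1 hk').2)
  · intro x hx y _ k hk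
    have h1 := (mem_filter.1 hk).2
    have h2 := rd_near (t := k.1 + al p₁ p₂ (pinv p₁ p₂ P' x) * k.2) hd
    unfold st at h1
    rw [h1, (hmem x hx).2] at h2
    exact h2
  · intro x hx
    have h1 := h.full hs8 (e := e2) (fun k => hfib k) (hP' (hmem x hx).1)
    have h2 : (#(Yx L lam δ ε p₁ p₂ #Q W a J w₀ G P' x) : ℝ)
        = ∑ y ∈ Sx L lam δ ε p₁ p₂ #Q W a J w₀ G P' x,
          (#(Cx L lam δ ε p₁ p₂ #Q W a J w₀ G P' x y) : ℝ) := by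
      have := card_eq_sum_card_image (st L δ p₁ p₂ (pinv p₁ p₂ P' x))
        (Yx L lam δ ε p₁ p₂ #Q W a J w₀ G P' x)
      unfold Sx Cx
      exact_mod_cast this
    rw [← h2]
    unfold Yx
    exact h1.trans (mul_le_mul_of_nonneg_right (hpow hu2) (Nat.cast_nonneg _))
  · have h1 : (#(P0c L ε p₁ p₂ Q) : ℝ) ≤ #Q := by
      have : #(P0c L ε p₁ p₂ Q) ≤ #Q := card_image_le.trans (card_le_card (filter_subset _ _))
      exact_mod_cast this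
    calc (#(P0c L ε p₁ p₂ Q) : ℝ) ≤ #Q := h1
      _ = 1 * lam ^ 2 * (#Q / lam ^ 2) := by field_simp
      _ ≤ L ^ u * lam ^ 2 * (#Q / lam ^ 2) := by
        have : 1 ≤ L ^ u := one_le_pow₀ hL1
        gcongr
  · intro x hx t r ht htr _ s₀ h₀
    exact star_of h hP' hinj hstar hu3 hx ht htr s₀ h₀

end gi

/-- **assembly** -/
theorem stU2_of (hSel : StSel) (hFP : StFP) (hFib : StFib) (hDimP : StDimP)
    (hStar : StStarC) : StU2 := by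
  classical
  obtain ⟨s, c1, hSel⟩ := hSel
  obtain ⟨e1, c2, hFP⟩ := hFP
  obtain ⟨e2, hFib⟩ := hFib
  obtain ⟨c3, hFib⟩ := hFib s
  obtain ⟨e3, c4, hStar⟩ := hStar
  obtain ⟨cc', hAC⟩ := stAC2
  obtain ⟨c₀, hE⟩ := Vale.Agent.P065.UB.H196.stEnd
  obtain ⟨mE, hE⟩ := hE 2
  obtain ⟨u, hu⟩ : ∃ u, u = e1 + e2 + e3 + 3 := ⟨_, rfl⟩
  obtain ⟨v, hv⟩ : ∃ v, v = u * cc' + u + 3 := ⟨_, rfl⟩
  obtain ⟨E, hEE⟩ : ∃ E, E = v * (c₀ + 1) := ⟨_, rfl⟩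
  obtain ⟨c5, hDimP⟩ := hDimP s E
  obtain ⟨C0, hC0⟩ : ∃ C0, C0 = c1 + c2 + c3 + c4 + c5 + s + 48 + v * mE := ⟨_, rfl⟩
  refine ⟨C0, ?_⟩
  intro K L lam δ Q ι W a b Y J hPJ
  obtain ⟨w₀, hw₀, ε, hε, p₁, hp₁, p₂, hp₂, P3, hP3, G0, hG0, hgP, hgG, hfar, hfarP, hjn,
    hcP, hcG⟩ := hSel C0 (by omega) K L lam δ Q ι W a b Y J hPJ
  have hSl : Sl s C0 K L lam δ Q W a b Y J w₀ ε p₁ p₂ P3 G0 :=
    ⟨⟨hPJ, by omega, hw₀, hε, hp₁, hp₂, hfar⟩, hP3, hG0, hgP, hgG, hfarP, hjn, hcP, hcG⟩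
  obtain ⟨P', hP', hinj, hPc⟩ := hSl.exists_apex (by omega) (e := e1)
    (fun q hq => hFP C0 (by omega) K L lam δ Q ι W a b Y J hPJ q hq)
  have hfib := hFib C0 (by omega) K L lam δ Q ι W a b Y J w₀ ε p₁ p₂ P3 G0 hSl
  have hst : StarFor e3 L lam δ Q W a J w₀ ε p₁ p₂ P' (Gp L lam δ ε p₁ p₂ #Q G0) :=
    hStar s C0 (by omega) K L lam δ Q ι W a b Y J w₀ ε p₁ p₂ P3 G0 hSl P' hP' hinj
      (Gp L lam δ ε p₁ p₂ #Q G0) Gp_sub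
  have hgi := gridIn_of hSl (by omega) hP' hinj hPc hfib hst (u := u) (by omega) (by omega)
    (by omega)
  have hL1 := hPJ.L1
  have hL0 := hSl.fr.L0
  have hl1 := hPJ.lam1
  have hl0 : 0 < lam := by linarith
  have hN := hPJ.N0
  have hd := hSl.d0
  obtain ⟨A', X, hout⟩ := hAC _ _ _ _ _ _ _ _ _ _ hgi
  have hpow : ∀ {i j : ℕ}, i ≤ j → L ^ i ≤ L ^ j := fun hi => pow_le_pow_right₀ hL1 hi
  have hKc : (L ^ u) ^ cc' ≤ L ^ v := by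
    rw [← pow_mul]; exact hpow (by omega)
  have hKu : L ^ u ≤ L ^ v := hpow (by omega)
  have hd1 : L ^ 8 * δ ≤ 1 := by
    have h1 := hSl.fr.small' (k := 8) (by norm_num)
    have h2 : (1 : ℝ) / 2 ^ 40 ≤ 1 := by norm_num
    rw [mul_comm]
    exact h1.trans h2
  have hLbig := hSl.fr.Lbig
  have hL6 : (6 : ℝ) ≤ L := le_trans (by norm_num) hLbig
  have hLv : L ^ 3 ≤ L ^ v := hpow (by omega)
  have hApos : (0 : ℝ) < #(P'.image (al p₁ p₂)) := by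
    by_contra hcon
    have h1 : (#(P'.image (al p₁ p₂)) : ℝ) = 0 := le_antisymm (not_lt.1 hcon) (Nat.cast_nonneg _)
    have h2 := hgi.cA
    rw [h1, mul_zero] at h2
    linarith
  have hneA : A'.Nonempty := by
    rw [← card_pos]
    by_contra hcon
    have h1 : #A' = 0 := by omega
    have h2 := hout.cA
    rw [h1, Nat.cast_zero, mul_zero] at h2
    linarith
  refine hE (L ^ v) (L ^ 8 * δ) lam X A' ⟨?_, hd, hd1, ?_, ?_, ?_, hneA, ?_, ?_, ?_, ?_⟩ ?_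
  · calc (2 : ℝ) ≤ L := by linarith
      _ = L ^ 1 := (pow_one L).symm
      _ ≤ L ^ v := hpow (by omega)
  · intro x hx y hy hne
    exact hgi.sH x (hout.subX hx) y (hout.subX hy) hne
  · intro x hx
    obtain ⟨q, hq, rfl⟩ := mem_image.1 (hout.subX hx)
    have hqG := Gp_sub hq
    have hqQ : q ∈ Q := hG0 hqG
    have h1 := hSl.fr.cc_abs (p := p₂) (q := q) (hSl.fr.boxY hw₀ hp₂) (hPJ.box q hqQ)
      (hSl.hlow hqG)
    have h2 := rd_near (t := cc ε p₁ p₂ p₂ q) hd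
    have h3 : |rd (L ^ 8 * δ) (cc ε p₁ p₂ p₂ q)| ≤ |cc ε p₁ p₂ p₂ q|
        + |cc ε p₁ p₂ p₂ q - rd (L ^ 8 * δ) (cc ε p₁ p₂ p₂ q)| := by
      have e : rd (L ^ 8 * δ) (cc ε p₁ p₂ p₂ q) = cc ε p₁ p₂ p₂ q
        - (cc ε p₁ p₂ p₂ q - rd (L ^ 8 * δ) (cc ε p₁ p₂ p₂ q)) := by ring
      calc _ = |cc ε p₁ p₂ p₂ q - (cc ε p₁ p₂ p₂ q - rd (L ^ 8 * δ) (cc ε p₁ p₂ p₂ q))| := by
            rw [← e]
        _ ≤ _ := abs_sub _ _
    calc |rd (L ^ 8 * δ) (cc ε p₁ p₂ p₂ q)| ≤ 4 * L ^ 2 + 1 := by linarith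
      _ ≤ L * L ^ 2 := by nlinarith
      _ = L ^ 3 := by ring
      _ ≤ L ^ v := hLv
  · exact hout.cX.trans (mul_le_mul_of_nonneg_right hKc (Nat.cast_nonneg _))
  · intro x hx
    have h1 := hgi.A1 x (hout.subA hx)
    exact ⟨h1.1.trans (mul_le_mul_of_nonneg_right hKu (abs_nonneg _)), h1.2.trans hKu⟩
  · intro x hx y hy
    obtain ⟨Z, h1, h2⟩ := hout.cov x hx y hy
    exact ⟨Z, h1.trans (mul_le_mul_of_nonneg_right hKc hl0.le), h2⟩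
  · intro t r ht htr hr1 P Q' R hP hQ hR
    have h1 := hout.suba t r ht htr hr1 P Q' R hP.1 (fun x hx y hy hxy => by
        rw [Real.dist_eq]; exact hP.2.1 x hx y hy hxy) hQ.1
      (fun x hx => by obtain ⟨w, hw, h⟩ := hQ.2.2 x hx; exact ⟨w, hw, h.le⟩) hR.1
      (fun x hx => by obtain ⟨w, hw, h⟩ := hR.2.2 x hx; exact ⟨w, hw, h.le⟩)
    calc (#P : ℝ) ≤ (L ^ u) ^ cc' * #R * #Q' := h1
      _ = (L ^ u) ^ cc' * (#R * #Q') := by ring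
      _ ≤ L ^ v * (#R * #Q') := mul_le_mul_of_nonneg_right hKc (by positivity)
  · intro r hdr hr1 P hP hPc'
    have h1 := hDimP C0 (by omega) K L lam δ Q ι W a b Y J w₀ ε p₁ p₂ P3 G0 hSl X
      (fun x hx => by
        obtain ⟨q, hq, rfl⟩ := mem_image.1 (hout.subX hx)
        exact (mem_filter.1 hq).2)
      (by
        refine hout.cX.trans (mul_le_mul_of_nonneg_right ?_ (Nat.cast_nonneg _))
        refine hKc.trans (hpow ?_)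
        rw [hEE]
        exact Nat.le_mul_of_pos_right v (by omega)) r hdr P hP.2.2 (by
        refine hPc'.trans ?_
        rw [← pow_mul, hEE]
        exact hpow (Nat.mul_le_mul_left v (by omega)))
    calc (L ^ 8 * δ) ^ 2 * lam ^ (2 + 1) ≤ r ^ 2 := h1
      _ = 1 * r ^ 2 := by ring
      _ ≤ L ^ v * r ^ 2 := mul_le_mul_of_nonneg_right (one_le_pow₀ hL1) (sq_nonneg _)
  · rw [← pow_mul]
    exact hPJ.powL (by omega)

end Vale.Agent.P065.H626.U2
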