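import Vale.Agent.P065.H626.U2Asm
import Vale.Agent.P065.H882.Sel
import Vale.Agent.P065.UB.H936.Gd
import Vale.Agent.P065.UB.H151.FP
import Vale.Agent.P065.UB.H151.DimP
import Vale.Agent.P065.UB.H651.Fib
import Vale.Agent.P065.UB.H759.Starc

/-!
# P065, upper bound, line P: `StU2` is a theorem (helper626)
-/

set_option autoImplicit false

namespace Vale.Agent.P065.H626.U2

open Vale.Agent.P065.UB Vale.Agent.P065.UB.H759

/-- **[U2]** unconditional. -/
theorem stU2 : StU2 :=
  stU2_of (Vale.Agent.P065.H882.stSel_of Vale.Agent.P065.UB.H936.stGd)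
    Vale.Agent.P065.UB.H151.stFP Vale.Agent.P065.UB.H651.stFib
    Vale.Agent.P065.UB.H151.stDimP Vale.Agent.P065.UB.H759.stStarC

end Vale.Agent.P065.H626.U2
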